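import Crest.Agent.N221.H.Defs
import Crest.Agent.N221.U.Ex
import Crest.Agent.N221.U.Ju
import Crest.Agent.N221.U.Dn

/-! Row 221, block H (helper48): first derivatives of the horospherical structure and smoothness
of `U ∘ rev` along the weak stable leaves (`dHorS`). -/

set_option autoImplicit false

open MeasureTheory Set Filter Topology Metric
open scoped ContDiff RealInnerProductSpace ENNReal BoundedContinuousFunction
open Crest.GeometryTopology.Submanifold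
open Crest.Agent.R241.DDefs Crest.Agent.R241.D2
open Crest.Agent.R208.J Crest.Agent.R208.L
open Crest.Agent.Lib.ODEFlow

noncomputable section

namespace Crest.Agent.N221.H

namespace DH

section abstract

variable {E F : Type*} [NormedAddCommGroup E] [NormedSpace ℝ E]
  [NormedAddCommGroup F] [NormedSpace ℝ F]

lemma hda_line {f : E → F} {y : E} (hf : DifferentiableAt ℝ f y) (η : E) :
    HasDerivAt (fun s : ℝ => f (y + s • η)) (fderiv ℝ f y η) 0 :=
  hf.hasFDerivAt.hasLineDerivAt η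

lemma ev_line {U : Set E} {y : E} (hU : U ∈ 𝓝 y) (η : E) :
    ∀ᶠ s : ℝ in 𝓝 0, y + s • η ∈ U := by
  have h : Continuous fun s : ℝ => y + s • η := by fun_prop
  have h2 := h.continuousAt (x := 0)
  rw [ContinuousAt, zero_smul, add_zero] at h2
  exact h2 hU

variable {K : Type*} [TopologicalSpace K] [CompactSpace K]

lemma contDiff_compLeft (L : E →L[ℝ] F) :
    ContDiff ℝ ∞ fun f : C(K, E) => L.compLeftContinuous ℝ K f :=
  (L.compLeftContinuous ℝ K).contDiff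

lemma contDiff_pair : ∃ Φ : C(K, E) × C(K, F) → C(K, E × F), ContDiff ℝ ∞ Φ ∧
    ∀ f z, Φ f z = (f.1 z, f.2 z) :=
  ⟨_, ((contDiff_compLeft (ContinuousLinearMap.inl ℝ E F)).comp contDiff_fst).add
    ((contDiff_compLeft (ContinuousLinearMap.inr ℝ E F)).comp contDiff_snd),
    fun _ _ => Prod.ext (add_zero _) (zero_add _)⟩

variable [FiniteDimensional ℝ E]

/-- linear version of `sw` -/
def swL : (E →L[ℝ] C(K, F)) →ₗ[ℝ] C(K, E →L[ℝ] F) where
  toFun L := ⟨fun z => (ContinuousMap.evalCLM ℝ z) ∘L L, by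
    rw [continuous_clm_apply]
    intro e
    exact (L e).continuous⟩
  map_add' _ _ := by ext; rfl
  map_smul' _ _ := by ext; rfl

lemma norm_swL (L : E →L[ℝ] C(K, F)) : ‖swL L‖ ≤ 1 * ‖L‖ := by
  rw [one_mul, ContinuousMap.norm_le _ (norm_nonneg _)]
  intro z
  refine ContinuousLinearMap.opNorm_le_bound _ (norm_nonneg _) fun e => ?_
  exact ((L e).norm_coe_le_norm z).trans (L.le_opNorm e)

/-- an operator with values in continuous functions as a continuous family of operators -/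
def sw : (E →L[ℝ] C(K, F)) →L[ℝ] C(K, E →L[ℝ] F) :=
  LinearMap.mkContinuous (𝕜 := ℝ) (𝕜₂ := ℝ) (E := E →L[ℝ] C(K, F)) (F := C(K, E →L[ℝ] F))
    swL 1 norm_swL

lemma contDiff_sw : ContDiff ℝ ∞ fun L : E →L[ℝ] C(K, F) => sw L := by fun_prop

lemma smooth_pair (base : C(K, E)) {W : E → C(K, F)} {s : Set E} (hs : IsOpen s)
    (hW : ContDiffOn ℝ ∞ W s) : ∃ γ : E → C(K, E × (E →L[ℝ] F)), ContDiffOn ℝ ∞ γ s ∧
      ∀ y z, (γ y z).1 = base z + y ∧ ∀ e, (γ y z).2 e = fderiv ℝ W y e z := by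
  obtain ⟨Φ, hΦ, hΦ'⟩ := contDiff_pair (K := K) (E := E) (F := E →L[ℝ] F)
  have h1 : ContDiff ℝ ∞ fun y : E => base + ContinuousLinearMap.const ℝ K y :=
    contDiff_const.add (ContinuousLinearMap.const ℝ K : E →L[ℝ] C(K, E)).contDiff
  have h2 : ContDiffOn ℝ ∞ (fderiv ℝ W) s := hW.fderiv_of_isOpen hs (by simp)
  refine ⟨fun y => Φ (base + ContinuousLinearMap.const ℝ K y, sw (fderiv ℝ W y)),
    hΦ.comp_contDiffOn (h1.contDiffOn.prodMk (contDiff_sw.comp_contDiffOn h2)), fun y z => ?_⟩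
  rw [hΦ']
  exact ⟨rfl, fun _ => rfl⟩

omit [FiniteDimensional ℝ E] in
lemma hda_eval {f : E → C(K, F)} {y : E} (hf : DifferentiableAt ℝ f y) (η : E) (z : K) :
    HasDerivAt (fun s : ℝ => f (y + s • η) z) (fderiv ℝ f y η z) 0 :=
  (ContinuousMap.evalCLM ℝ z : C(K, F) →L[ℝ] F).hasFDerivAt.comp_hasDerivAt (0 : ℝ)
    (hda_line hf η)

omit [FiniteDimensional ℝ E] [CompactSpace K] in
lemma hda_evalB {f : E → (K →ᵇ F)} {y : E} (hf : DifferentiableAt ℝ f y) (η : E) (z : K) :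
    HasDerivAt (fun s : ℝ => f (y + s • η) z) (fderiv ℝ f y η z) 0 :=
  (BoundedContinuousFunction.evalCLM ℝ z : (K →ᵇ F) →L[ℝ] F).hasFDerivAt.comp_hasDerivAt (0 : ℝ)
    (hda_line hf η)

end abstract

variable {n N : ℕ} {a : ℝ} {S : Set (Euc N)} {G : Geo n N (-(a ^ 2)) S} {q : TT N}

lemma fderiv_fl (hq : q ∈ TS G) (t b : ℝ) (ξ : TT N) :
    fderiv ℝ (fl G) (q, t) (ξ, b) = Dfl G q t ξ + b • X G (fl G (q, t)) := by
  have h1 : HasDerivAt (fun s : ℝ => (q, s)) ((0 : TT N), (1 : ℝ)) t :=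
    (hasDerivAt_const _ _).prodMk (hasDerivAt_id t)
  have h2 := ((contDiffAt_fl' G hq t).differentiableAt
    (by simp)).hasFDerivAt.comp_hasDerivAt t h1
  have h3 := h2.unique (hasDerivAt_fl G (complete G hq t))
  rw [← h3, Dfl, ← map_smul, ← map_add]
  simp

/-- a Jacobi field which decays up to a multiple of the velocity is stable -/
lemma stable_jac (H : Hyp n N a S) (hq : q ∈ US G) {A B : Euc N} (hA : A ∈ G.T q.1)
    (hB : B ∈ Vp G q) {b : ℝ} {t : ℕ → ℝ} (ht : Tendsto t atTop atTop)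
    (h : Tendsto (fun k => Wj G q A B (t k) + b • q.2) atTop (𝓝 0)) :
    B = -U G (rev q) A ∧ b = -⟪q.2, A⟫ := by
  have hU := uExS n N a S G H
  have hr := rev_US hq
  have hE := UDn.det_E_pos hU H.a_pos hq
  obtain ⟨j, hj⟩ := ((UDn.E G q).toContinuousLinearEquivOfDetNeZero hE.ne').surjective
    (B + U G (rev q) A)
  rw [ContinuousLinearMap.toContinuousLinearEquivOfDetNeZero_apply, UDn.E_apply] at hj
  have hj2 : U G q j + U G (rev q) j = B + U G (rev q) A := by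
    have h1 := congrArg (Pv G q) hj
    rwa [map_add, map_add, map_add, map_sub, Pv_Pv hq, sub_self, add_zero, hU.Pv_comp hq,
      Pv_of_mem hq.1 (UDn.rev_mem' hU hq j), Pv_of_mem hq.1 hB,
      Pv_of_mem hq.1 (UDn.rev_mem' hU hq A)] at h1
  have hv : IsJac (Rh G q) (fun _ => ⟪q.2, A⟫ • q.2) (fun _ => 0) :=
    ⟨fun t => hasDerivAt_const _ _, fun t => by
      rw [map_smul, Rh_velocity hq.1, smul_zero, neg_zero]
      exact hasDerivAt_const _ _⟩
  have mP : ∀ x, Pv G q x ∈ G.T q.1 := fun x => (mem_Vp.1 (Pv_mem hq.1 hq.2 x)).1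
  have hdec : ∀ s, Wj G q A B s = Ju G q s j + Js G q s (A - j) + ⟪q.2, A⟫ • q.2 := by
    intro s
    refine ((isJac_Wj hq.1 hA (mem_Vp.1 hB).1).unique (contDiff_Rh hq.1).continuous
      (((isJac_Ju hU hq j).add (isJac_Js hU hq (A - j))).add hv) (t₀ := 0) ?_ ?_ s).1
    · simp only [Ju_apply, Js_apply, Wj_zero]
      rw [← map_add, add_sub_cancel, Pv_apply, (P_eq_self G hq.1.1).1 hA, sub_add_cancel]
    · rw [Wj'_zero hq.1 hA (mem_Vp.1 hB).1, Wj'_zero hq.1 (mP _) (mem_Vp.1 (hU.mem hq j)).1,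
        Wj'_zero hq.1 (mP _) (mem_Vp.1 (neg_mem (UDn.rev_mem' hU hq (A - j)))).1, add_zero,
        map_sub, neg_sub, ← add_sub_assoc, hj2, add_sub_cancel_right]
  have hJs : ∀ s, Js G q s (A - j) = Ju G (rev q) (-s) (A - j) := fun s => (Js_rev hU hq s _).1
  have hmu : ∀ s, ⟪Ju G q s j, q.2⟫ = 0 := fun s => (mem_Vp.1 (Ju_mem H.cpt hU hq s j)).2
  have hms : ∀ s, ⟪Js G q s (A - j), q.2⟫ = 0 := fun s => by
    have h1 := Ju_mem H.cpt hU hr (-s) (A - j)
    rw [Vp_rev, ← hJs] at h1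
    exact (mem_Vp.1 h1).2
  have hb : b = -⟪q.2, A⟫ := by
    have h1 := h.inner (𝕜 := ℝ) (tendsto_const_nhds (x := q.2))
    have h2 : ∀ k, ⟪Wj G q A B (t k) + b • q.2, q.2⟫ = ⟪q.2, A⟫ + b := fun k => by
      rw [hdec, inner_add_left, inner_add_left, inner_add_left, hmu, hms, real_inner_smul_left,
        real_inner_smul_left, real_inner_self_eq_norm_sq, show ‖q.2‖ = 1 from hq.2]
      ring
    simp only [h2, inner_zero_left] at h1
    have h3 := tendsto_nhds_unique h1 tendsto_const_nhds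
    linarith
  refine ⟨?_, hb⟩
  have h2 : Tendsto (fun k => Ju G q (t k) j + Js G q (t k) (A - j)) atTop (𝓝 0) := by
    refine h.congr fun k => ?_
    rw [hdec, hb, neg_smul, add_neg_cancel_right]
  have h3 : Pv G q j = 0 := by
    by_contra hne
    have hpos : 0 < ‖Pv G q j‖ := norm_pos_iff.2 hne
    have h4 : Tendsto (fun k => Real.exp (a * t k) * ‖Pv G q j‖) atTop atTop :=
      (Real.tendsto_exp_atTop.comp (ht.const_mul_atTop H.a_pos)).atTop_mul_const hpos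
    have h5 := h4.eventually_gt_atTop (1 + ‖Ju G (rev q) 0 (A - j)‖)
    have h6 := h2.norm.eventually (gt_mem_nhds (show ‖(0 : Euc N)‖ < 1 by simp))
    obtain ⟨k, hk1, hk2, hk3⟩ := (h5.and (h6.and (ht.eventually_ge_atTop 0))).exists
    have h7 := Ju_lower H.cpt hU hq j hk3
    rw [Ju_zero, sub_zero] at h7
    have h8 := Ju_lower H.cpt hU hr (A - j) (neg_nonpos.2 hk3)
    rw [← hJs] at h8
    have h9 : 1 ≤ Real.exp (a * (0 - -t k)) :=
      Real.one_le_exp (mul_nonneg H.a_pos.le (by linarith))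
    have h10 := norm_sub_le (Ju G q (t k) j + Js G q (t k) (A - j)) (Js G q (t k) (A - j))
    rw [add_sub_cancel_right] at h10
    have h11 := mul_le_mul_of_nonneg_right h9 (norm_nonneg (Js G q (t k) (A - j)))
    linarith
  have h4 : U G q j = 0 := by rw [← hU.comp_Pv q hq, h3, map_zero]
  have h5 : U G (rev q) j = 0 := by rw [← hU.comp_Pv _ hr, Pv_rev, h3, map_zero]
  rw [h4, h5, add_zero] at hj2
  exact eq_neg_of_add_eq_zero_left hj2.symm

variable [CompactSpace (US G)] {ρ : Euc N → Euc N} {T r : ℝ} {W : Euc N → C(US G, Euc N)}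
  {β : Euc N → C(US G, ℝ)} {u : Euc N → (US G × ℕ →ᵇ TT N)}

theorem deriv_eq (H : Hyp n N a S) (h : IsHor G ρ T r W β u) {y : Euc N}
    (hy : y ∈ ball (0 : Euc N) r) (z : US G) (η : Euc N) :
    G.P (pt ρ W y z).1 (fderiv ℝ W y η z) =
        -U G (rev (pt ρ W y z)) (fderiv ℝ ρ ((z : TT N).1 + y) η) ∧
      fderiv ℝ β y η z = -⟪W y z, fderiv ℝ ρ ((z : TT N).1 + y) η⟫ := by
  have hn := isOpen_ball.mem_nhds hy
  have hev := ev_line hn η
  have hw := h.mem y hy z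
  have dρ : HasDerivAt (fun s : ℝ => ρ ((z : TT N).1 + (y + s • η)))
      (fderiv ℝ ρ ((z : TT N).1 + y) η) 0 := by
    simp only [← add_assoc]
    exact hda_line ((h.ret.smooth _ z.2.1.1 y hy).differentiableAt (by simp)) η
  have dW : HasDerivAt (fun s : ℝ => W (y + s • η) z) (fderiv ℝ W y η z) 0 :=
    hda_eval ((h.smW.contDiffAt hn).differentiableAt (by simp)) η z
  have dβ : HasDerivAt (fun s : ℝ => β (y + s • η) z) (fderiv ℝ β y η z) 0 :=
    hda_eval ((h.smβ.contDiffAt hn).differentiableAt (by simp)) η z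
  have du : ∀ k : ℕ, HasDerivAt (fun s : ℝ => u (y + s • η) (z, k)) (fderiv ℝ u y η (z, k)) 0 :=
    fun k => hda_evalB ((h.smu.contDiffAt hn).differentiableAt (by simp)) η (z, k)
  set A := fderiv ℝ ρ ((z : TT N).1 + y) η with hA
  set D := fderiv ℝ W y η z with hD
  set b := fderiv ℝ β y η z with hb
  set w := pt ρ W y z with hwdef
  have dc : HasDerivAt (fun s : ℝ => pt ρ W (y + s • η) z) (A, D) 0 := dρ.prodMk dW
  have hc0 : pt ρ W (y + (0 : ℝ) • η) z = w := by rw [zero_smul, add_zero]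
  have htan : R208.J.TanTS G w (A, D) :=
    ⟨_, hc0, dc, hev.mono fun s hs => (h.mem _ hs z).1⟩
  have hAm : A ∈ G.T w.1 := htan.fst_mem
  have hsnd : D = dP G w A + G.P w.1 D := by
    rw [add_comm]
    exact htan.snd_eq
  have hw2 : w.2 = W y z := rfl
  have hDv : ⟪D, w.2⟫ = 0 := by
    have h1 := dW.inner ℝ dW
    have h2 : (fun s : ℝ => ⟪W (y + s • η) z, W (y + s • η) z⟫) =ᶠ[𝓝 0] fun _ => (1 : ℝ) := by
      filter_upwards [hev] with s hs
      have h3 : ‖W (y + s • η) z‖ = 1 := (h.mem _ hs z).2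
      rw [real_inner_self_eq_norm_sq, h3, one_pow]
    have h3 := (h1.congr_of_eventuallyEq h2.symm).unique (hasDerivAt_const (0 : ℝ) (1 : ℝ))
    rw [zero_smul, add_zero, ← hw2, real_inner_comm] at h3
    linarith
  have hB : G.P w.1 D ∈ Vp G w := mem_Vp.2 ⟨P_mem G hw.1.1, by
    rw [inner_P_left G hw.1.1, (P_eq_self G hw.1.1).1 hw.1.2, hDv]⟩
  have key : ∀ k : ℕ, ‖Wj G w A (G.P w.1 D) (β y z + (k + 1) * T) + b • w.2‖ ≤
      (1 / 2 : ℝ) ^ (k + 1) * ‖fderiv ℝ u y η‖ := by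
    intro k
    set t := β y z + (k + 1) * T with ht
    have h1 : HasDerivAt (fun s : ℝ => (pt ρ W (y + s • η) z, β (y + s • η) z + (k + 1) * T))
        ((A, D), b) 0 := dc.prodMk (dβ.add_const _)
    have h2 : HasFDerivAt (fl G) (fderiv ℝ (fl G) (w, t))
        (pt ρ W (y + (0 : ℝ) • η) z, β (y + (0 : ℝ) • η) z + (k + 1) * T) := by
      rw [zero_smul, add_zero]
      exact ((contDiffAt_fl' G hw.1 t).differentiableAt (by simp)).hasFDerivAt
    have h3 := h2.comp_hasDerivAt (0 : ℝ) h1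
    have h4 := ((du k).const_smul ((1 / 2 : ℝ) ^ (k + 1))).const_add (fl G (z, (k + 1) * T))
    have h5 := (h3.congr_of_eventuallyEq (by
      filter_upwards [hev] with s hs
      exact (h.orbit _ hs z k).symm)).unique h4
    rw [fderiv_fl hw.1] at h5
    have h6 := congrArg Prod.fst h5
    have h7 : Wj G w A (G.P w.1 D) t + b • w.2 =
        PTi G w t (Dfl G w t (A, D) + b • X G (fl G (w, t))).1 := by
      have h8 : (Dfl G w t (A, D) + b • X G (fl G (w, t))).1 =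
          JF G w (A, D) t + b • (fl G (w, t)).2 := rfl
      rw [h8, map_add, map_smul, ← PT_velocity hw.1, PTi_PT hw.1, Wj, ← hsnd]
    rw [h7, norm_PTi hw.1, h6]
    refine (norm_fst_le _).trans ?_
    rw [norm_smul, Real.norm_of_nonneg (by positivity)]
    exact mul_le_mul_of_nonneg_left (BoundedContinuousFunction.norm_coe_le_norm _ _)
      (by positivity)
  have ht : Tendsto (fun k : ℕ => β y z + (k + 1) * T) atTop atTop :=
    tendsto_atTop_add_const_left _ _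
      ((tendsto_atTop_add_const_right _ _ tendsto_natCast_atTop_atTop).atTop_mul_const h.T_pos)
  have hlim : Tendsto (fun k : ℕ => (1 / 2 : ℝ) ^ (k + 1) * ‖fderiv ℝ u y η‖) atTop (𝓝 0) := by
    have h1 := ((tendsto_pow_atTop_nhds_zero_of_lt_one (r := (1 / 2 : ℝ)) (by norm_num)
      (by norm_num)).comp (tendsto_add_atTop_nat 1)).mul_const ‖fderiv ℝ u y η‖
    rwa [zero_mul] at h1
  exact stable_jac H hw hAm hB ht (squeeze_zero_norm key hlim)

/-- invertible extension of the differential of the retraction -/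
def Q (G : Geo n N (-(a ^ 2)) S) (ρ : Euc N → Euc N) (p : Euc N) : Op N :=
  fderiv ℝ ρ p ∘L G.P (ρ p) + (ContinuousLinearMap.id ℝ (Euc N) - G.P (ρ p))

omit [CompactSpace (US G)] in
lemma Q_apply (p e : Euc N) :
    Q G ρ p e = fderiv ℝ ρ p (G.P (ρ p) e) + (e - G.P (ρ p) e) := rfl

omit [CompactSpace (US G)] in
lemma contDiffAt_Q {p : Euc N} (hp : ContDiffAt ℝ ∞ ρ p) : ContDiffAt ℝ ∞ (Q G ρ) p := by
  have h1 : ContDiffAt ℝ ∞ (fun p => G.P (ρ p)) p := G.contDiff_P.contDiffAt.comp p hp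
  exact ((hp.fderiv_right (by simp)).clm_comp h1).add (contDiffAt_const.sub h1)

omit [CompactSpace (US G)] in
lemma Q_self (h : Ret S ρ r) {x : Euc N} (hx : x ∈ S) :
    Q G ρ x = ContinuousLinearMap.id ℝ (Euc N) := by
  ext1 e
  have hd : DifferentiableAt ℝ ρ x := by
    have := (h.smooth x hx 0 (mem_ball_self h.r_pos)).differentiableAt (by simp)
    rwa [add_zero] at this
  obtain ⟨c, h0, h1, h2⟩ := exists_curve G hx (P_mem G (v := e) hx)
  have h3 : HasFDerivAt ρ (fderiv ℝ ρ x) (c 0) := by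
    rw [h0]
    exact hd.hasFDerivAt
  have h4 := ((h3.comp_hasDerivAt (0 : ℝ) h1).congr_of_eventuallyEq
    (h2.mono fun s hs => (h.eq _ hs).symm)).unique h1
  rw [Q_apply, h.eq x hx, h4, add_sub_cancel]
  rfl

omit [CompactSpace (US G)] in
lemma fderiv_mem (h : Ret S ρ r) {x y : Euc N} (hx : x ∈ S) (hy : y ∈ ball (0 : Euc N) r)
    (η : Euc N) : fderiv ℝ ρ (x + y) η ∈ G.T (ρ (x + y)) := by
  have h1 := hda_line ((h.smooth _ hx y hy).differentiableAt (by simp)) η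
  have h2 := G.deriv_mem _ _ 0 ((ev_line (isOpen_ball.mem_nhds hy) η).mono fun s hs => by
    rw [add_assoc]
    exact h.mem x hx _ hs) h1
  simpa using h2

omit [CompactSpace (US G)] in
lemma fderiv_inverse (h : Ret S ρ r) {x y : Euc N} (hx : x ∈ S) (hy : y ∈ ball (0 : Euc N) r)
    (hQ : (Q G ρ (x + y)).IsInvertible) {e : Euc N} (he : e ∈ G.T (ρ (x + y))) :
    fderiv ℝ ρ (x + y) ((Q G ρ (x + y)).inverse e) = e := by
  have hp := h.mem x hx y hy
  have h1 := hQ.self_apply_inverse e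
  set η := (Q G ρ (x + y)).inverse e
  rw [Q_apply] at h1
  have h2 := congrArg (G.P (ρ (x + y))) h1
  rw [map_add, map_sub, P_idem G hp, sub_self, add_zero,
    (P_eq_self G hp).1 (fderiv_mem h hx hy _), (P_eq_self G hp).1 he] at h2
  rw [h2, add_eq_left, sub_eq_zero] at h1
  rw [h1, h2]

omit [CompactSpace (US G)] in
lemma exists_nbhd (hc : IsCompact S) (h : Ret S ρ r) : ∃ Ω : Set (Euc N), IsOpen Ω ∧
    (∀ p ∈ Ω, ContDiffAt ℝ ∞ ρ p ∧ (Q G ρ p).IsInvertible) ∧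
    ∃ δ > 0, δ ≤ r ∧ ∀ x ∈ S, ∀ y ∈ ball (0 : Euc N) δ, x + y ∈ Ω := by
  set O : Set (Euc N) := {p | ∃ x ∈ S, ∃ y ∈ ball (0 : Euc N) r, x + y = p} with hO
  have hOo : IsOpen O := IsOpen.add_left (s := S) isOpen_ball
  have hOs : ∀ p ∈ O, ContDiffAt ℝ ∞ ρ p := by
    rintro _ ⟨x, hx, y, hy, rfl⟩
    exact h.smooth x hx y hy
  have hΩo : IsOpen (O ∩ (fun p => (Q G ρ p).det) ⁻¹' {0}ᶜ) := by
    refine ContinuousOn.isOpen_inter_preimage (fun p hp => ?_) hOo isOpen_compl_singleton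
    exact (ContinuousLinearMap.continuous_det.continuousAt.comp
      (contDiffAt_Q (hOs p hp)).continuousAt).continuousWithinAt
  have hSΩ : S ⊆ O ∩ (fun p => (Q G ρ p).det) ⁻¹' {0}ᶜ := fun x hx =>
    ⟨⟨x, hx, 0, mem_ball_self h.r_pos, add_zero x⟩, by
      simp [Q_self h hx, ContinuousLinearMap.det]⟩
  obtain ⟨δ, hδ, hth⟩ := hc.exists_thickening_subset_open hΩo hSΩ
  refine ⟨_, hΩo, fun p hp => ⟨hOs p hp.1, (Q G ρ p).toContinuousLinearEquivOfDetNeZero hp.2,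
    ContinuousLinearMap.coe_toContinuousLinearEquivOfDetNeZero _ _⟩, min δ r, lt_min hδ h.r_pos,
    min_le_right _ _, fun x hx y hy => hth (mem_thickening_iff.2 ⟨x, hx, ?_⟩)⟩
  have := ball_subset_ball (min_le_left _ _) hy
  simpa [dist_eq_norm] using this

/-- the formula for the second fundamental form of the horospheres -/
def gA (G : Geo n N (-(a ^ 2)) S) (ρ : Euc N → Euc N) (p : Euc N × Op N) : Op N :=
  -(G.P (ρ p.1) ∘L p.2 ∘L (Q G ρ p.1).inverse ∘L G.P (ρ p.1))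

omit [CompactSpace (US G)] in
lemma gA_apply (p : Euc N × Op N) (e : Euc N) :
    gA G ρ p e = -G.P (ρ p.1) (p.2 ((Q G ρ p.1).inverse (G.P (ρ p.1) e))) := rfl

omit [CompactSpace (US G)] in
lemma contDiffAt_gA {p : Euc N × Op N} (h0 : ContDiffAt ℝ ∞ ρ p.1)
    (hinv : (Q G ρ p.1).IsInvertible) : ContDiffAt ℝ ∞ (gA G ρ) p := by
  have h1 : ContDiffAt ℝ ∞ (fun p : Euc N × Op N => G.P (ρ p.1)) p :=
    (G.contDiff_P.contDiffAt.comp p.1 h0).comp p contDiffAt_fst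
  have h2 : ContDiffAt ℝ ∞ (fun p : Euc N × Op N => (Q G ρ p.1).inverse) p :=
    ((hinv.contDiffAt_map_inverse).comp p.1 (contDiffAt_Q h0)).comp p contDiffAt_fst
  exact (h1.clm_comp (contDiffAt_snd.clm_comp (h2.clm_comp h1))).neg

theorem smooth_U (H : Hyp n N a S) (h : IsHor G ρ T r W β u) :
    ∃ r' > 0, r' ≤ r ∧ ∃ A : Euc N → C(US G, Op N), ContDiffOn ℝ ∞ A (ball 0 r') ∧
      ∀ y ∈ ball (0 : Euc N) r', ∀ z : US G, A y z = U G (rev (pt ρ W y z)) := by
  have hU := uExS n N a S G H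
  obtain ⟨Ω, hΩo, hΩ, δ, hδ, hδr, hin⟩ := exists_nbhd (G := G) H.cpt h.ret
  have hgs : ContDiffOn ℝ ∞ (gA G ρ) (Ω ×ˢ univ) := fun p hp =>
    (contDiffAt_gA (hΩ _ hp.1).1 (hΩ _ hp.1).2).contDiffWithinAt
  obtain ⟨γ, hγs, hγ⟩ := smooth_pair
    (⟨fun z => (z : TT N).1, by fun_prop⟩ : C(US G, Euc N)) isOpen_ball h.smW
  have hγ1 : ∀ y (z : US G), (γ y z).1 = (z : TT N).1 + y := fun y z => (hγ y z).1
  have hsub : ball (0 : Euc N) δ ⊆ ball 0 r := ball_subset_ball hδr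
  have hmaps : ∀ y ∈ ball (0 : Euc N) δ, γ y ∈ mapsIn (US G) (Ω ×ˢ univ) := fun y hy z =>
    ⟨by rw [hγ1]; exact hin _ z.2.1.1 y hy, mem_univ _⟩
  have hnem : ContDiffOn ℝ ∞ (nem (K := US G) (gA G ρ)) (mapsIn (US G) (Ω ×ˢ univ)) :=
    contDiffOn_nem (n := ⊤) (hΩo.prod isOpen_univ) hgs
  refine ⟨δ, hδ, hδr, fun y => nem (gA G ρ) (γ y), hnem.comp (hγs.mono hsub) hmaps,
    fun y hy z => ?_⟩
  rw [nem_apply hgs.continuousOn (hmaps y hy)]
  ext1 e
  have hw := h.mem y (hsub hy) z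
  have hr := rev_US hw
  have h1 := (deriv_eq H h (hsub hy) z
    ((Q G ρ ((z : TT N).1 + y)).inverse (G.P (ρ ((z : TT N).1 + y)) e))).1
  rw [fderiv_inverse h.ret z.2.1.1 (hsub hy) (hΩ _ (hin _ z.2.1.1 y hy)).2 (P_mem G hw.1.1)] at h1
  have h2 : Pv G (rev (pt ρ W y z)) (G.P (ρ ((z : TT N).1 + y)) e) =
      Pv G (rev (pt ρ W y z)) e := by
    have h3 : (rev (pt ρ W y z)).1 = ρ ((z : TT N).1 + y) := rfl
    rw [Pv_apply, Pv_apply, ← h3, P_idem G hr.1.1, ← inner_P_left G hr.1.1,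
      (P_eq_self G hr.1.1).1 hr.1.2]
  rw [← hU.comp_Pv _ hr, h2, hU.comp_Pv _ hr, ← neg_eq_iff_eq_neg] at h1
  rw [gA_apply, hγ1, (hγ y z).2]
  exact h1

end DH

theorem dHorS : DHorS := fun _ _ _ _ _ _ H _ _ _ _ _ _ h =>
  ⟨fun _ hy z η => DH.deriv_eq H h hy z η, DH.smooth_U H h⟩

end Crest.Agent.N221.H
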