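import Crest.Agent.N221.H.Hor0

/-!
Row 221, horospherical jets (helper62): existence of the horospherical structure from the abstract
form of Irwin's theorem.
-/

set_option autoImplicit false

open MeasureTheory Set Filter Topology Metric
open scoped ContDiff RealInnerProductSpace ENNReal BoundedContinuousFunction
open Crest.GeometryTopology.Submanifold
open Crest.Agent.R241.DDefs Crest.Agent.R241.D2
open Crest.Agent.R208.J Crest.Agent.R208.L
open Crest.Agent.Lib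

noncomputable section

namespace Crest.Agent.N221.H

variable {n N : ℕ} {a : ℝ} {S : Set (Euc N)} {G : Geo n N (-(a ^ 2)) S} {z : TT N}

/-- the vertical vector attached to the coordinates -/
def Dq (G : Geo n N (-(a ^ 2)) S) (z : TT N) : YY N →L[ℝ] TT N :=
  (0 : YY N →L[ℝ] Euc N).prod ((U G z + U G (rev z)) ∘L ContinuousLinearMap.fst ℝ _ _)

/-- perturbation at the step `0` -/
def i0 (G : Geo n N (-(a ^ 2)) S) (z : TT N) : Euc N × YY N →L[ℝ] TT N × ℝ :=
  (ContinuousLinearMap.inl ℝ _ _ ∘L ContinuousLinearMap.fst ℝ _ _ +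
    Dq G z ∘L ContinuousLinearMap.snd ℝ _ _).prod
    (ContinuousLinearMap.snd ℝ _ _ ∘L ContinuousLinearMap.snd ℝ _ _)

/-- perturbation at the later steps -/
def i1 (G : Geo n N (-(a ^ 2)) S) (z : TT N) : TT N × YY N →L[ℝ] TT N × ℝ :=
  (ps G z ∘L ContinuousLinearMap.fst ℝ _ _ + iot G z ∘L ContinuousLinearMap.snd ℝ _ _).prod 0

lemma i0_apply (y : Euc N) (c : YY N) : i0 G z (y, c) = ((y, 0) + Dq G z c, c.2) := rfl

lemma i1_apply (s : TT N) (c : YY N) : i1 G z (s, c) = (ps G z s + iot G z c, 0) := rfl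

lemma Dq_apply (c : YY N) : Dq G z c = (0, U G z c.1 + U G (rev z) c.1) := rfl

variable (H : Hyp n N a S)
include H

lemma continuousOn_Dq : ContinuousOn (Dq G) (US G) :=
  cont_prod continuousOn_const (((isU H).cont.add (continuousOn_Um H)).clm_comp continuousOn_const)

lemma continuousOn_i0 : ContinuousOn (i0 G) (US G) :=
  cont_prod (continuousOn_const.add ((continuousOn_Dq H).clm_comp continuousOn_const))
    continuousOn_const

lemma continuousOn_i1 : ContinuousOn (i1 G) (US G) :=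
  cont_prod (((continuousOn_ps H).clm_comp continuousOn_const).add
    ((continuousOn_iot H).clm_comp continuousOn_const)) continuousOn_const

lemma L_i0 (hz : z ∈ US G) (T : ℝ) (c : YY N) :
    fderiv ℝ (fl G) (z, T) (dPi G z (i0 G z (0, c)).1, (i0 G z (0, c)).2) =
      vs G (fl G (z, T)) (PT G z T (Js G z T (-c.1))) +
        iot G (fl G (z, T)) (PT G z T (Ju G z T c.1), c.2) := by
  rw [i0_apply, Dq_apply, Prod.mk_zero_zero, zero_add, dPi_i0 (isU H) hz, fderiv_fl_vec H hz,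
    zero_add]

lemma L_i1 (hz : z ∈ US G) (T : ℝ) (s : TT N) (c : YY N) :
    fderiv ℝ (fl G) (z, T) (dPi G z (i1 G z (s, c)).1, (i1 G z (s, c)).2) =
      vs G (fl G (z, T)) (PT G z T (Js G z T (ps G z s).1)) +
        iot G (fl G (z, T)) (PT G z T (Ju G z T c.1), c.2) := by
  rw [i1_apply, dPi_i1 (isU H) H.a_pos hz, fderiv_fl_vec H hz, add_zero]

/-- contraction of the stable direction -/
lemma exists_T : ∃ T : ℝ, 0 < T ∧ ∀ z ∈ US G,
    (∀ j, ‖vs G (fl G (z, T)) (PT G z T (Js G z T j))‖ ≤ ‖j‖ / 4) ∧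
    ∀ s, ‖vs G (fl G (z, T)) (PT G z T (Js G z T (ps G z s).1))‖ ≤ ‖s‖ / 4 := by
  obtain ⟨C1, h1⟩ := (isCompact_US G H.cpt).exists_bound_of_continuousOn (continuousOn_vs H)
  obtain ⟨C2, h2⟩ := (isCompact_US G H.cpt).exists_bound_of_continuousOn (continuousOn_ps H)
  have ha := H.a_pos
  set A := |C1| + 1 with hA
  set B := |C2| + 1 with hB
  have A0 : 0 < A := by positivity
  have B1 : 1 ≤ B := by linarith [abs_nonneg C2]
  obtain ⟨T, T0, e⟩ : ∃ T : ℝ, 0 < T ∧ A * Real.exp (-(a * T)) * B ≤ 1 / 4 := by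
    refine ⟨4 * A * B / a, by positivity, ?_⟩
    rw [mul_div_cancel₀ _ ha.ne', Real.exp_neg, mul_right_comm, ← div_eq_mul_inv,
      div_le_iff₀ (Real.exp_pos _)]
    linarith [Real.add_one_le_exp (4 * A * B)]
  have key : ∀ z ∈ US G, ∀ j, ‖vs G (fl G (z, T)) (PT G z T (Js G z T j))‖ ≤
      A * Real.exp (-(a * T)) * ‖j‖ := by
    intro z hz j
    refine (ContinuousLinearMap.le_opNorm _ _).trans ?_
    rw [norm_PT hz.1, mul_assoc]
    exact mul_le_mul ((h1 _ (fl_US hz _)).trans (by linarith [le_abs_self C1]))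
      (norm_Js H hz _ T0.le j) (norm_nonneg _) A0.le
  set θ := A * Real.exp (-(a * T)) with hθ
  have θ0 : 0 ≤ θ := by positivity
  refine ⟨_, T0, fun z hz => ⟨fun j => (key z hz j).trans ?_, fun s => (key z hz _).trans ?_⟩⟩
  · nlinarith [norm_nonneg j, mul_le_mul_of_nonneg_left B1 θ0]
  · have h3 : ‖(ps G z s).1‖ ≤ B * ‖s‖ := (norm_fst_le _).trans
      ((ContinuousLinearMap.le_opNorm _ _).trans (mul_le_mul_of_nonneg_right
        ((h2 z hz).trans (by linarith [le_abs_self C2])) (norm_nonneg _)))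
    nlinarith [norm_nonneg s, mul_le_mul_of_nonneg_left h3 θ0]

/-- the fixed point equations make the perturbations consistent -/
lemma two_smul_eq (hz : z ∈ US G) {T : ℝ} (hT : 0 ≤ T) {s g : TT N} {c c' : YY N}
    (h1 : s = (2 : ℝ) • ps G (fl G (z, T)) g)
    (h2 : c = prY G z c - MM G T z (kap G (fl G (z, T)) g - (1 / 2 : ℝ) • c'))
    (h3 : prY G (fl G (z, T)) c' = c') :
    ps G (fl G (z, T)) s + iot G (fl G (z, T)) c' = (2 : ℝ) • g := by
  have h := isU (G := G) H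
  have hz1 := fl_US hz T
  have h4 := congrArg (prY G z) h2
  have h5 : prY G z (prY G z c) = prY G z c := by simp only [prY_apply, Pv_Pv hz]
  rw [map_sub, pr_MM H hz, h5, eq_comm, sub_eq_self] at h4
  have h6 := MM_inj H hz hT h4
  rw [map_sub, map_smul, pr_kap h H.a_pos hz1, h3, sub_eq_zero] at h6
  rw [h1, map_smul, ps_ps h H.a_pos hz1, ps_apply, h6, map_smul, smul_sub, smul_smul]
  simp

lemma pr_fix (hz : z ∈ US G) (T : ℝ) {c w : YY N} (h2 : c = prY G z c - MM G T z w) :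
    prY G z c = c := by
  have h5 : prY G z (prY G z c) = prY G z c := by simp only [prY_apply, Pv_Pv hz]
  conv_lhs => rw [h2, map_sub, pr_MM H hz, h5]
  exact h2.symm

/-- the orbit of the perturbed point -/
lemma orbit_eq {ρ : Euc N → Euc N} {O : Set (Euc N)} (hρ : RO G ρ O) {T r : ℝ} (hT : 0 ≤ T)
    {D : TT N × ℝ → US G → TT N}
    (hD : ∀ (z : US G) e, ‖e‖ < r → D e z = fl G (Pm G ρ (z + e.1), T + e.2) - fl G (z, T))
    (z : US G) {s g : ℕ → TT N} {c : ℕ → YY N} {e : TT N × ℝ} (hm : Pm G ρ (z + e.1) ∈ US G)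
    (n0 : ‖e‖ < r) (e0 : g 0 = D e z)
    (hk : ∀ k : ℕ, ‖i1 G ((fT G T)^[k + 1] z : TT N) (s k, c (k + 1))‖ < r ∧
      ((1 / 2 : ℝ) ^ (k + 1)) • g (k + 1) = D (((1 / 2 : ℝ) ^ (k + 1)) •
        i1 G ((fT G T)^[k + 1] z : TT N) (s k, c (k + 1))) ((fT G T)^[k + 1] z))
    (hs : ∀ k : ℕ, s k = (2 : ℝ) • ps G ((fT G T)^[k + 1] z : TT N) (g k) ∧
      c k = prY G ((fT G T)^[k] z : TT N) (c k) - MM G T ((fT G T)^[k] z : TT N)
        (kap G ((fT G T)^[k + 1] z : TT N) (g k) - (1 / 2 : ℝ) • c (k + 1))) (k : ℕ) :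
    fl G (Pm G ρ (z + e.1), e.2 + (k + 1) * T) =
      fl G (z, (k + 1) * T) + ((1 / 2 : ℝ) ^ (k + 1)) • (2 : ℝ) • g k := by
  induction k with
  | zero =>
    rw [e0, hD z _ n0, smul_smul, add_comm e.2]
    simp
  | succ k ih =>
    have e3 : ((fT G T)^[k + 1] z : TT N) = fl G (((fT G T)^[k] z : TT N), T) := by
      rw [Function.iterate_succ_apply']; rfl
    have e2 := two_smul_eq H ((fT G T)^[k] z).2 hT (e3 ▸ (hs k).1) (e3 ▸ (hs k).2)
      (e3 ▸ pr_fix H ((fT G T)^[k + 1] z).2 T (hs (k + 1)).2)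
    have n1 : ‖((1 / 2 : ℝ) ^ (k + 1)) • i1 G ((fT G T)^[k + 1] z : TT N) (s k, c (k + 1))‖ < r := by
      rw [norm_smul, Real.norm_of_nonneg (by positivity)]
      exact (mul_le_of_le_one_left (norm_nonneg _)
        (pow_le_one₀ (by norm_num) (by norm_num))).trans_lt (hk k).1
    have e4 := (hk k).2
    rw [← e3] at e2
    rw [hD _ _ n1, i1_apply, e2, fT_iter, Prod.smul_fst, Prod.smul_snd, smul_zero, add_zero] at e4
    push_cast at e4 ⊢
    rw [← ih, hρ.P_eq (fl_US hm _), ← fl_add' G hm.1, ← fl_add' G z.2.1] at e4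
    rw [smul_smul, pow_succ _ (k + 1), mul_assoc, show (1 / 2 : ℝ) * 2 = 1 by norm_num, mul_one, e4,
      add_mul ((k : ℝ) + 1), one_mul, ← add_assoc]
    abel

/-- the field `W` -/
lemma exists_W [CompactSpace (US G)] {ρ : Euc N → Euc N} {O : Set (Euc N)} (hρ : RO G ρ O) {r : ℝ}
    {c : Euc N → C(US G, YY N)} (sc : ContDiffOn ℝ ∞ c (ball 0 r))
    (hm : ∀ y ∈ ball (0 : Euc N) r, ∀ z : US G, z + (i0 G z (y, c y z)).1 ∈ OO G ρ O) :
    ∃ W : Euc N → C(US G, Euc N), ContDiffOn ℝ ∞ W (ball 0 r) ∧ ∀ y ∈ ball (0 : Euc N) r,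
      ∀ z : US G, pt ρ W y z = Pm G ρ (z + (i0 G z (y, c y z)).1) := by
  set α : Euc N → C(US G, TT N) := fun y => toC id continuousOn_id +
    (ContinuousLinearMap.const ℝ (US G) (ContinuousLinearMap.inl ℝ (Euc N) (Euc N) y) +
      ODEFlow.applyB (toC _ (continuousOn_Dq H)) (c y)) with hα
  have αm : ∀ y ∈ ball (0 : Euc N) r, α y ∈ ODEFlow.mapsIn (US G) (OO G ρ O) := hm
  have sW : ContDiffOn ℝ ∞ (fun w => (Pm G ρ w).2) (OO G ρ O) := hρ.smP.snd
  have s1 : ContDiff ℝ ∞ fun y : Euc N => (ContinuousLinearMap.const ℝ (US G)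
      (ContinuousLinearMap.inl ℝ (Euc N) (Euc N) y) : C(US G, TT N)) :=
    (ContinuousLinearMap.const ℝ (US G) ∘L ContinuousLinearMap.inl ℝ (Euc N) (Euc N)).contDiff
  have s2 : ContDiffOn ℝ ∞ (fun y => ODEFlow.applyB (toC _ (continuousOn_Dq (G := G) H)) (c y))
      (ball 0 r) := (ODEFlow.applyB (toC _ (continuousOn_Dq (G := G) H))).contDiff.comp_contDiffOn sc
  have sα : ContDiffOn ℝ ∞ α (ball 0 r) := contDiffOn_const.add (s1.contDiffOn.add s2)
  refine ⟨fun y => ODEFlow.nem (fun w => (Pm G ρ w).2) (α y),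
    (ODEFlow.contDiffOn_nem (n := ⊤) hρ.isOpen sW).comp sα αm, fun y hy z =>
      Prod.ext ?_ (ODEFlow.nem_apply sW.continuousOn (αm y hy) z)⟩
  simp [pt, Pm, Qm, i0_apply, Dq_apply]

omit H in
theorem horS (hI : IrwS) : HorS := by
  intro n N a S G _ H
  have h := isU (G := G) H
  have ha := H.a_pos
  obtain ⟨ρ, O, hρ⟩ := exists_RO G H.sub H.cpt
  obtain ⟨r1, hr1, hO1⟩ := (isCompact_US G H.cpt).exists_thickening_subset_open hρ.isOpen hρ.subO
  obtain ⟨r2, hr2, hO2⟩ := H.cpt.exists_thickening_subset_open hρ.op hρ.sub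
  have hO : ∀ z ∈ US G, ∀ u : TT N, ‖u‖ < r1 → z + u ∈ OO G ρ O := fun z hz u hu =>
    hO1 (mem_thickening_iff.2 ⟨z, hz, by simpa using hu⟩)
  obtain ⟨T, hT, hc⟩ := exists_T (G := G) H
  obtain ⟨D, hD, hD0, hDd, hDv⟩ := exists_disp hρ hr1 hO T
  obtain ⟨r', hr', s, c, g, -, sc, sg, -, c0, g0, hfix⟩ := hI (US G) (Euc N) (TT N × ℝ) (TT N)
    (YY N) (fT G T) D r1
    (fun z => fderiv ℝ (fl G) (z, T) ∘L (dPi G z).prodMap (ContinuousLinearMap.id ℝ ℝ))
    (toC _ (continuousOn_i0 H)) (toC _ (continuousOn_i1 H)) (toC _ (continuousOn_ps H))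
    (toC _ (continuousOn_kap H)) (toC _ continuousOn_prY) (toC _ (continuousOn_MM H T))
    hr1 hD hD0 (fun z e => hDd z e) (fun z c => norm_MM H z.2 hT.le c)
    (fun z c => (congrArg (fun w => MM G T z (kap G (fl G (z, T)) w)) (L_i0 H z.2 T c)).trans (by
      rw [kap_vec h ha (fl_US z.2 T), MM_pr H z.2]; rfl))
    (fun z s c => (congrArg (fun w => MM G T z (kap G (fl G (z, T)) w)) (L_i1 H z.2 T s c)).trans (by
      rw [kap_vec h ha (fl_US z.2 T), MM_pr H z.2]; rfl))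
    (fun z c => (congrArg (fun w => ‖ps G (fl G (z, T)) w‖) (L_i0 H z.2 T c)).trans_le (by
      rw [ps_vec h ha (fl_US z.2 T)]
      refine ((hc z z.2).1 _).trans ?_
      rw [norm_neg]
      linarith [norm_fst_le c]))
    (fun z s c => (congrArg (fun w => ‖ps G (fl G (z, T)) w‖) (L_i1 H z.2 T s c)).trans_le (by
      rw [ps_vec h ha (fl_US z.2 T)]
      exact (hc z z.2).2 s))
  have sev : ContDiffOn ℝ ∞ (fun y => ev0 (K := US G) (B := YY N) (c y)) (ball 0 r') :=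
    (ev0 (K := US G) (B := YY N)).contDiff.comp_contDiffOn sc
  have hm : ∀ y ∈ ball (0 : Euc N) r', ∀ z : US G,
      z + (i0 G z (y, ev0 (K := US G) (B := YY N) (c y) z)).1 ∈ OO G ρ O := fun y hy z =>
    hO z z.2 _ ((norm_fst_le _).trans_lt (hfix y hy z).1)
  obtain ⟨W, sW, ptv⟩ := exists_W H hρ sev hm
  have b1 : ball (0 : Euc N) (min r' r2) ⊆ ball 0 r' := ball_subset_ball (min_le_left _ _)
  have b2 : ∀ x ∈ S, ∀ y ∈ ball (0 : Euc N) (min r' r2), x + y ∈ O := fun x hx y hy =>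
    hO2 (mem_thickening_iff.2 ⟨x, hx, by simpa using ball_subset_ball (min_le_right _ _) hy⟩)
  refine ⟨ρ, T, min r' r2, W, fun y => (ContinuousLinearMap.snd ℝ (Euc N) ℝ).compLeftContinuous ℝ
    (US G) (ev0 (c y)), fun y => (2 : ℝ) • g y, hT, ⟨lt_min hr' hr2, fun x hx y hy =>
      hρ.sm.contDiffAt (hρ.op.mem_nhds (b2 x hx y hy)), fun x hx y hy => hρ.maps (b2 x hx y hy),
      hρ.eq⟩, sW.mono b1, ((ContinuousLinearMap.contDiff _).comp_contDiffOn sev).mono b1,
    (sg.const_smul 2).mono b1, fun z => ?_, by simp [c0], by simp [g0],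
    fun y hy z => ptv y (b1 hy) z ▸ hρ.P_mem (hm y (b1 hy) z), fun y hy z k => ?_⟩
  · have h1 := congrArg Prod.snd (ptv 0 (mem_ball_self hr') z)
    rw [c0] at h1
    simpa [pt, i0_apply, Prod.mk_zero_zero, hρ.P_eq z.2] using h1
  · obtain ⟨n0, e0, hk, hs⟩ := hfix y (b1 hy) z
    rw [ptv y (b1 hy)]
    exact orbit_eq H hρ hT.le (D := fun e z => D e z) hDv z (s := fun k => s y (z, k))
      (g := fun k => g y (z, k)) (c := fun k => c y (z, k)) (hρ.P_mem (hm y (b1 hy) z)) n0 e0 hk hs k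

end Crest.Agent.N221.H
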