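import Crest.Agent.N221.H.Defs

/-!
# Row 221, horospherical jets: smooth fixed points and Irwin's theorem (helper60)
-/

set_option autoImplicit false

open Set Filter Topology Metric
open scoped ContDiff BoundedContinuousFunction

noncomputable section

namespace Crest.Agent.N221.H

namespace Irw

section Fix

variable {Λ B : Type} [NormedAddCommGroup Λ] [NormedSpace ℝ Λ] [NormedAddCommGroup B]
  [NormedSpace ℝ B] [CompleteSpace B]

theorem exists_equiv (T : Λ × B →L[ℝ] B) (h : ‖T.comp (ContinuousLinearMap.inr ℝ Λ B)‖ < 1) :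
    ∃ e : (Λ × B) ≃L[ℝ] (Λ × B), (e : Λ × B →L[ℝ] Λ × B) =
      (ContinuousLinearMap.fst ℝ Λ B).prod (ContinuousLinearMap.snd ℝ Λ B - T) := by
  refine ⟨(ContinuousLinearEquiv.refl ℝ Λ).skewProd
    (ContinuousLinearEquiv.ofUnit (Units.oneSub _ h)) (-T.comp (ContinuousLinearMap.inl ℝ Λ B)), ?_⟩
  refine ContinuousLinearMap.ext fun ⟨y, b⟩ => Prod.ext rfl ?_
  change b - T (0, b) + -T (y, 0) = b - T (y, b)
  rw [show ((y, b) : Λ × B) = (0, b) + (y, 0) by simp, map_add]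
  abel

end Fix

section Fam

variable {A K W V V' : Type} [TopologicalSpace A] [TopologicalSpace K] [CompactSpace K]
  [NormedAddCommGroup W] [NormedSpace ℝ W] [NormedAddCommGroup V] [NormedSpace ℝ V]
  [NormedAddCommGroup V'] [NormedSpace ℝ V']

theorem exists_fam (φ : W → A → V) (C : ℝ) (h1 : ∀ w w' x, φ (w + w') x = φ w x + φ w' x)
    (h2 : ∀ (c : ℝ) w x, φ (c • w) x = c • φ w x) (hc : ∀ w, Continuous (φ w)) (hC : 0 ≤ C)
    (hb : ∀ w x, ‖φ w x‖ ≤ C * ‖w‖) : ∃ L : W →L[ℝ] (A →ᵇ V), ∀ w x, L w x = φ w x :=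
  ⟨LinearMap.mkContinuous
    { toFun := fun w => BoundedContinuousFunction.ofNormedAddCommGroup (φ w) (hc w) _ (hb w)
      map_add' := fun w w' => by ext x; exact h1 w w' x
      map_smul' := fun c w => by ext x; exact h2 c w x } C
    fun w => (BoundedContinuousFunction.norm_le (by positivity)).2 (hb w), fun _ _ => rfl⟩

theorem norm_ap (T : C(K, V →L[ℝ] V')) (z : K) (v : V) : ‖T z v‖ ≤ ‖T‖ * ‖v‖ :=
  ((T z).le_opNorm v).trans (by gcongr; exact T.norm_coe_le_norm z)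

theorem exists_ap (T : C(K, V →L[ℝ] V')) {q : A → K} (hq : Continuous q) {σ : A → A}
    (hσ : Continuous σ) : ∃ L : (A →ᵇ V) →L[ℝ] (A →ᵇ V'), ∀ η x, L η x = T (q x) (η (σ x)) :=
  exists_fam (W := A →ᵇ V) (fun η x => T (q x) (η (σ x))) ‖T‖ (fun _ _ _ => map_add _ _ _)
    (fun _ _ _ => map_smul _ _ _)
    (fun η => (T.continuous.comp hq).clm_apply (η.continuous.comp hσ)) (by positivity)
    fun η x => (norm_ap T _ _).trans (by gcongr; exact η.norm_coe_le_norm _)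

end Fam

end Irw

open Irw

theorem fixS : FixS := by
  intro Λ B _ _ _ _ _ _ Φ Ω hΩ h0 hΦ hΦ0 hq
  set Ψ : Λ × B → Λ × B := fun w => (w.1, w.2 - Φ w) with hΨ
  have hc : ∀ w ∈ Ω, ContDiffAt ℝ ∞ Ψ w := fun w hw =>
    contDiffAt_fst.prodMk (contDiffAt_snd.sub (hΦ.contDiffAt (hΩ.mem_nhds hw)))
  have hd : ∀ w ∈ Ω, ‖(fderiv ℝ Φ w).comp (ContinuousLinearMap.inr ℝ Λ B)‖ < 1 →
      ∃ e : (Λ × B) ≃L[ℝ] (Λ × B), HasFDerivAt Ψ (e : Λ × B →L[ℝ] Λ × B) w := fun w hw h => by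
    obtain ⟨e, he⟩ := exists_equiv _ h
    refine ⟨e, he ▸ hasFDerivAt_fst.prodMk (hasFDerivAt_snd.sub ?_)⟩
    exact ((hΦ.contDiffAt (hΩ.mem_nhds hw)).differentiableAt (by simp)).hasFDerivAt
  obtain ⟨e0, he0⟩ := hd 0 h0 hq
  set e := (hc 0 h0).toOpenPartialHomeomorph Ψ he0 (by simp) with he
  have hs : (0 : Λ × B) ∈ e.source := (hc 0 h0).mem_toOpenPartialHomeomorph_source he0 _
  have hee : ∀ w, e w = Ψ w := fun _ => rfl
  have he00 : e 0 = 0 := by rw [hee]; simp [hΨ, hΦ0]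
  have ht : (0 : Λ × B) ∈ e.target := he00 ▸ e.map_source hs
  have hs0 : e.symm 0 = 0 := by rw [← he00, e.left_inv hs, he00]
  obtain ⟨ρ, hρ, hρs⟩ := Metric.mem_nhds_iff.1 (e.open_source.mem_nhds hs)
  have h1 : ∀ᶠ w in 𝓝 (0 : Λ × B), w ∈ Ω ∧ ‖w‖ < ρ ∧
      ‖(fderiv ℝ Φ w).comp (ContinuousLinearMap.inr ℝ Λ B)‖ < 1 := by
    have h2 : ContinuousAt (fderiv ℝ Φ) 0 :=
      (hΦ.continuousOn_fderiv_of_isOpen hΩ (by simp)).continuousAt (hΩ.mem_nhds h0)
    filter_upwards [hΩ.mem_nhds h0, ball_mem_nhds _ hρ,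
      (h2.clm_comp continuousAt_const).norm.eventually (gt_mem_nhds hq)] with w a b c
    exact ⟨a, mem_ball_zero_iff.1 b, c⟩
  have h3 : Tendsto (fun y : Λ => ((y, 0) : Λ × B)) (𝓝 0) (𝓝 0) :=
    (continuous_id.prodMk continuous_const).tendsto 0
  have h4 : Tendsto e.symm (𝓝 0) (𝓝 0) := by
    have := (e.continuousAt_symm ht).tendsto
    rwa [hs0] at this
  obtain ⟨r, hr, h5⟩ := Metric.mem_nhds_iff.1
    (((h4.comp h3).eventually h1).and ((h3.eventually (e.open_target.mem_nhds ht)).and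
      (ball_mem_nhds (0 : Λ) hρ)))
  have h6 : ∀ y ∈ ball (0 : Λ) r, e.symm (y, 0) = (y, (e.symm (y, 0)).2) := fun y hy => by
    have := congrArg Prod.fst (e.right_inv (h5 hy).2.1)
    exact Prod.ext this rfl
  refine ⟨r, hr, ρ, hρ, fun y => (e.symm (y, 0)).2, fun y hy => ?_, congrArg Prod.snd hs0,
    fun y hy => ?_, fun y hy b hb h => ?_⟩
  · obtain ⟨⟨a, -, c⟩, d, -⟩ := h5 hy
    obtain ⟨e1, he1⟩ := hd _ a c
    exact (contDiffAt_snd.comp y ((e.contDiffAt_symm d he1 (hc _ a)).comp y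
      (contDiffAt_id.prodMk contDiffAt_const))).contDiffWithinAt
  · obtain ⟨⟨a, b, -⟩, d, -⟩ := h5 hy
    rw [← h6 y hy]
    exact ⟨a, (norm_snd_le _).trans_lt b,
      (sub_eq_zero.1 (congrArg Prod.snd (e.right_inv d))).symm⟩
  · have h7 : ((y, b) : Λ × B) ∈ e.source := hρs (by
      rw [← Prod.mk_zero_zero, ← ball_prod_same]
      exact ⟨(h5 hy).2.2, hb⟩)
    have h8 : e (y, b) = (y, 0) := by rw [hee]; simp [hΨ, h]
    change b = (e.symm (y, 0)).2
    rw [← h8, e.left_inv h7]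

theorem irwS (hN : NemS) (hH : HadS) (hF : FixS) : IrwS := by
  intro K Λ E F Y _ _ _ _ _ _ _ _ _ _ _ _ _ _ f h r L i0 i1 ps κ pr M hr hh h0 hL a1 a2 a3 a4 a5
  have := FiniteDimensional.complete ℝ Λ
  have := FiniteDimensional.complete ℝ F
  have := FiniteDimensional.complete ℝ Y
  obtain ⟨gh, g1, g2, g3, g4⟩ := hH K E F h r hr hh
  have q0 : Continuous fun x : K × ℕ => f^[x.2] x.1 :=
    continuous_prod_of_discrete_right.2 fun k => f.continuous.iterate k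
  have q1 : Continuous fun x : K × ℕ => f^[x.2 + 1] x.1 :=
    continuous_prod_of_discrete_right.2 fun k => f.continuous.iterate (k + 1)
  have qs : Continuous fun x : K × ℕ => (x.1, x.2 + 1) := by fun_prop
  set ε : ℕ → Icc (0 : ℝ) 1 := fun k =>
    ⟨(1 / 2) ^ k, by positivity, pow_le_one₀ (by norm_num) (by norm_num)⟩ with hε
  obtain ⟨Ng, n1, n2, n3⟩ := hN (K × ℕ) (K × Icc (0 : ℝ) 1) E F ⟨fun x => (f^[x.2] x.1, ε x.2),
    q0.prodMk ((continuous_of_discreteTopology (f := ε)).comp continuous_snd)⟩ gh r g1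
  simp only [ContinuousMap.coe_mk] at n2 n3
  obtain ⟨In, hIn⟩ := exists_fam (W := Λ × ((K × ℕ →ᵇ F) × (K × ℕ →ᵇ Y))) (A := K × ℕ)
    (fun w x => Nat.casesOn (motive := fun _ => E) x.2 (i0 x.1 (w.1, w.2.2 (x.1, 0)))
      fun k => i1 (f^[k + 1] x.1) (w.2.1 (x.1, k), w.2.2 (x.1, k + 1))) (‖i0‖ + ‖i1‖)
    (by
      rintro w w' ⟨z, _ | k⟩
      exacts [map_add (i0 z) (w.1, w.2.2 (z, 0)) (w'.1, w'.2.2 (z, 0)), map_add (i1 (f^[k + 1] z))
        (w.2.1 (z, k), w.2.2 (z, k + 1)) (w'.2.1 (z, k), w'.2.2 (z, k + 1))])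
    (by
      rintro c w ⟨z, _ | k⟩
      exacts [map_smul (i0 z) c (w.1, w.2.2 (z, 0)),
        map_smul (i1 (f^[k + 1] z)) c (w.2.1 (z, k), w.2.2 (z, k + 1))])
    (fun w => continuous_prod_of_discrete_right.2 fun k => by
      cases k with
      | zero => exact i0.continuous.clm_apply (by fun_prop)
      | succ k =>
        exact (i1.continuous.comp (f.continuous.iterate (k + 1))).clm_apply (by fun_prop))
    (by positivity) (by
      rintro ⟨y, s, c⟩ ⟨z, _ | k⟩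
      · refine (norm_ap _ _ _).trans (mul_le_mul (le_add_of_nonneg_right (by positivity))
          (max_le_max le_rfl ((c.norm_coe_le_norm _).trans (le_max_right _ _))) (norm_nonneg _)
          (by positivity))
      · refine (norm_ap _ _ _).trans (mul_le_mul (le_add_of_nonneg_left (by positivity))
          ((max_le_max (s.norm_coe_le_norm _) (c.norm_coe_le_norm _)).trans (le_max_right _ _))
          (norm_nonneg _) (by positivity)))
  have I0 : ∀ w z, In w (z, 0) = i0 z (w.1, w.2.2 (z, 0)) := fun w z => hIn w (z, 0)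
  have I1 : ∀ w z k, In w (z, k + 1) = i1 (f^[k + 1] z) (w.2.1 (z, k), w.2.2 (z, k + 1)) :=
    fun w z k => hIn w (z, k + 1)
  obtain ⟨S, hS⟩ := exists_ap ps q1 continuous_id
  obtain ⟨Kp, hKp⟩ := exists_ap κ q1 continuous_id
  obtain ⟨M0, hM0⟩ := exists_ap M q0 continuous_id
  obtain ⟨M1, hM1⟩ := exists_ap M q0 qs
  obtain ⟨Pr, hPr⟩ := exists_ap pr q0 continuous_id
  simp only [id] at hS hKp hM0 hPr
  have b0 : (0 : K × ℕ →ᵇ E) ∈ ball 0 r := mem_ball_self hr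
  have N0 : Ng 0 = 0 := by
    ext x
    rw [n2 0 b0]
    simp [g2]
  set P1 : (K × ℕ →ᵇ F) →L[ℝ] (K × ℕ →ᵇ F) × (K × ℕ →ᵇ Y) := ((2 : ℝ) • S).prod (-(M0 ∘L Kp))
    with hP1
  set P2 : Λ × ((K × ℕ →ᵇ F) × (K × ℕ →ᵇ Y)) →L[ℝ] (K × ℕ →ᵇ F) × (K × ℕ →ᵇ Y) :=
    (0 : _ →L[ℝ] _).prod ((Pr + (1 / 2 : ℝ) • M1) ∘L ContinuousLinearMap.snd ℝ _ _ ∘L
      ContinuousLinearMap.snd ℝ _ _) with hP2
  have e1 : ∀ g w x, (P1 g + P2 w).1 x = (2 : ℝ) • ps (f^[x.2 + 1] x.1) (g x) := fun g w x => by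
    simp [hP1, hP2, hS]
  have e2 : ∀ g w x, (P1 g + P2 w).2 x = pr (f^[x.2] x.1) (w.2.2 x) - M (f^[x.2] x.1)
      (κ (f^[x.2 + 1] x.1) (g x) - (1 / 2 : ℝ) • w.2.2 (x.1, x.2 + 1)) := fun g w x => by
    simp only [hP1, hP2, Prod.snd_add, ContinuousLinearMap.prod_apply, neg_apply,
      ContinuousLinearMap.comp_apply, add_apply, smul_apply,
      ContinuousLinearMap.coe_snd', BoundedContinuousFunction.add_apply,
      BoundedContinuousFunction.neg_apply, BoundedContinuousFunction.smul_apply, hM0, hKp, hM1, hPr,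
      map_sub, map_smul]
    abel
  have hD : HasFDerivAt (fun w => P1 (Ng (In w)) + P2 w) (P1 ∘L fderiv ℝ Ng 0 ∘L In + P2) 0 := by
    have h1 : HasFDerivAt Ng (fderiv ℝ Ng 0) (In 0) := by
      rw [map_zero]
      exact ((n1.contDiffAt (isOpen_ball.mem_nhds b0)).differentiableAt (by simp)).hasFDerivAt
    exact (P1.hasFDerivAt.comp _ (h1.comp _ In.hasFDerivAt)).add P2.hasFDerivAt
  have hDN : ∀ ζ x, fderiv ℝ Ng 0 ζ x = L (f^[x.2] x.1) (ζ x) := fun ζ x => by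
    rw [n3 0 b0, hL]
    exact g4 _ _ _
  obtain ⟨r', hr', ρ, -, ψ, p1, p2, p3, -⟩ := hF Λ ((K × ℕ →ᵇ F) × (K × ℕ →ᵇ Y))
    (fun w => P1 (Ng (In w)) + P2 w) (In ⁻¹' ball 0 r) (isOpen_ball.preimage In.continuous)
    (by simpa using hr)
    ((P1.contDiff.comp_contDiffOn (n1.comp In.contDiff.contDiffOn fun _ h => h)).add
      P2.contDiff.contDiffOn) (by simp [N0]) (by
      rw [hD.fderiv]
      refine lt_of_le_of_lt (ContinuousLinearMap.opNorm_le_bound _ (by norm_num : (0 : ℝ) ≤ 1 / 2)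
        fun b => ?_) (by norm_num)
      change ‖P1 (fderiv ℝ Ng 0 (In (0, b))) + P2 (0, b)‖ ≤ _
      refine max_le ((BoundedContinuousFunction.norm_le (by positivity)).2 ?_)
        ((BoundedContinuousFunction.norm_le (by positivity)).2 ?_)
      · rintro ⟨z, k⟩
        rw [e1, hDN, norm_smul, Function.iterate_succ_apply', Real.norm_two]
        cases k with
        | zero =>
          rw [I0]
          change 2 * ‖ps (f z) (L z (i0 z (0, b.2 (z, 0))))‖ ≤ _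
          linarith [a4 z (b.2 (z, 0)), b.2.norm_coe_le_norm (z, 0), norm_snd_le b]
        | succ k =>
          rw [I1]
          linarith [a5 (f^[k + 1] z) (b.1 (z, k)) (b.2 (z, k + 1)), b.1.norm_coe_le_norm (z, k),
            norm_fst_le b]
      · rintro ⟨z, k⟩
        rw [e2, hDN, map_sub, Function.iterate_succ_apply']
        have : M (f^[k] z) (κ (f (f^[k] z)) (L (f^[k] z) (In (0, b) (z, k)))) =
            pr (f^[k] z) (b.2 (z, k)) := by
          cases k with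
          | zero => rw [I0]; exact a2 _ _
          | succ k => rw [I1]; exact a3 _ _ _
        rw [this, sub_sub_cancel]
        refine (a1 _ _).trans ?_
        rw [norm_smul, Real.norm_of_nonneg (by norm_num)]
        gcongr
        exact (b.2.norm_coe_le_norm _).trans (norm_snd_le b))
  refine ⟨r', hr', fun y => (ψ y).1, fun y => (ψ y).2, fun y => Ng (In (y, ψ y)), p1.fst, p1.snd,
    n1.comp (In.contDiff.comp_contDiffOn (contDiffOn_id.prodMk p1)) fun y hy => (p3 y hy).1,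
    by simp [p2], by simp [p2], by simp only [p2, Prod.mk_zero_zero, map_zero, N0],
    fun y hy z => ?_⟩
  obtain ⟨m1, -, m2⟩ := p3 y hy
  have m3 : ∀ x, ‖In (y, ψ y) x‖ < r := fun x =>
    ((In (y, ψ y)).norm_coe_le_norm x).trans_lt (mem_ball_zero_iff.1 m1)
  have m4 : ∀ k : ℕ, ((1 / 2 : ℝ) ^ k) • Ng (In (y, ψ y)) (z, k) =
      h (((1 / 2 : ℝ) ^ k) • In (y, ψ y) (z, k)) (f^[k] z) := fun k => by
    rw [n2 _ m1]
    refine (g3 _ (mem_ball_zero_iff.2 (m3 _)) _ (ε k)).trans ?_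
    rw [h0, ContinuousMap.zero_apply, sub_zero]
  refine ⟨I0 (y, ψ y) z ▸ m3 _, ?_, fun k => ⟨I1 (y, ψ y) z k ▸ m3 _, I1 (y, ψ y) z k ▸ m4 _⟩,
    fun k => ⟨?_, ?_⟩⟩
  · have := m4 0
    rwa [pow_zero, one_smul, one_smul, I0] at this
  · exact (congrArg (fun b => b.1 (z, k)) m2).symm.trans (e1 _ _ _)
  · exact (congrArg (fun b => b.2 (z, k)) m2).symm.trans (e2 _ _ _)

end Crest.Agent.N221.H
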