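import Crest.Agent.N221.H.Defs
import Crest.Agent.Lib.ODEFlow

/-!
Row 221, horospherical jets: superposition operators and the Hadamard quotient (helper38).
-/

set_option autoImplicit false
set_option linter.unusedSectionVars false

open MeasureTheory Set Filter Topology Metric
open scoped ContDiff BoundedContinuousFunction

noncomputable section

namespace Crest.Agent.N221.H

namespace Nem

section bcf

variable {A E B : Type} [TopologicalSpace A] [NormedAddCommGroup E] [NormedSpace ℝ E]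
  [NormedAddCommGroup B] [NormedSpace ℝ B] {r : ℝ}

open Classical in
/-- superposition operator on bounded continuous functions -/
def N0 (g : E → B) (η : A →ᵇ E) : A →ᵇ B :=
  if h : ∃ θ : A →ᵇ B, ∀ x, θ x = g (η x) then h.choose else 0

/-- pointwise application -/
def apB : (A →ᵇ (E →L[ℝ] B)) →L[ℝ] (A →ᵇ E) →L[ℝ] (A →ᵇ B) :=
  LinearMap.mkContinuous₂
    (LinearMap.mk₂ ℝ (fun (L : A →ᵇ (E →L[ℝ] B)) (h : A →ᵇ E) =>
        BoundedContinuousFunction.ofNormedAddCommGroup (fun t => L t (h t))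
          (L.continuous.clm_apply h.continuous) (‖L‖ * ‖h‖) fun t =>
            (L t).le_of_opNorm_le_of_le (L.norm_coe_le_norm t) (h.norm_coe_le_norm t))
      (by intros; ext; simp) (by intros; ext; simp) (by intros; ext; simp)
      (by intros; ext; simp)) 1 (by
    intro L h
    rw [one_mul]
    exact (BoundedContinuousFunction.norm_le (by positivity)).2 fun t =>
      (L t).le_of_opNorm_le_of_le (L.norm_coe_le_norm t) (h.norm_coe_le_norm t))

@[simp] lemma apB_apply (L : A →ᵇ (E →L[ℝ] B)) (h : A →ᵇ E) (t : A) : apB L h t = L t (h t) := rfl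

lemma mem_ball_apply {η : A →ᵇ E} (hη : η ∈ ball (0 : A →ᵇ E) r) (x : A) : η x ∈ ball (0 : E) r :=
  mem_ball_zero_iff.2 ((η.norm_coe_le_norm x).trans_lt (mem_ball_zero_iff.1 hη))

variable [FiniteDimensional ℝ E]

lemma N0_apply {g : E → B} (hg : ContinuousOn g (ball 0 r)) {η : A →ᵇ E}
    (hη : η ∈ ball (0 : A →ᵇ E) r) (x : A) : N0 g η x = g (η x) := by
  have := FiniteDimensional.proper_real E
  obtain ⟨C, hC⟩ := (isCompact_closedBall (0 : E) ‖η‖).exists_bound_of_continuousOn
    (hg.mono (closedBall_subset_ball (mem_ball_zero_iff.1 hη)))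
  have h : ∃ θ : A →ᵇ B, ∀ x, θ x = g (η x) :=
    ⟨BoundedContinuousFunction.ofNormedAddCommGroup (fun x => g (η x))
      (hg.comp_continuous η.continuous (mem_ball_apply hη)) C fun x =>
        hC _ (mem_closedBall_zero_iff.2 (η.norm_coe_le_norm x)), fun _ => rfl⟩
  rw [N0, dif_pos h]
  exact h.choose_spec x

lemma continuousOn_N0 {g : E → B} (hg : ContinuousOn g (ball 0 r)) :
    ContinuousOn (N0 (A := A) g) (ball 0 r) := by
  have := FiniteDimensional.proper_real E
  intro α hα
  rw [ContinuousWithinAt, Metric.tendsto_nhds]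
  intro ε hε
  have hf : ∀ a ∈ closedBall (0 : E) ‖α‖, ContinuousAt g a := fun a ha =>
    hg.continuousAt (isOpen_ball.mem_nhds (closedBall_subset_ball (mem_ball_zero_iff.1 hα) ha))
  obtain ⟨δ, hδ, h⟩ := Metric.mem_uniformity_dist.1
    ((isCompact_closedBall (0 : E) ‖α‖).uniformContinuousAt_of_continuousAt g hf
      (Metric.dist_mem_uniformity (half_pos hε)))
  have h1 : ∀ᶠ β in 𝓝[ball 0 r] α, dist β α < δ := nhdsWithin_le_nhds (Metric.ball_mem_nhds α hδ)
  filter_upwards [h1, self_mem_nhdsWithin] with β hβ hβU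
  refine lt_of_le_of_lt ?_ (half_lt_self hε)
  rw [BoundedContinuousFunction.dist_le (half_pos hε).le]
  intro t
  rw [N0_apply hg hα, N0_apply hg hβU, dist_comm]
  have := h (a := α t) (b := β t) (by
    rw [dist_comm]; exact lt_of_le_of_lt (BoundedContinuousFunction.dist_coe_le_dist t) hβ)
  exact le_of_lt (this (mem_closedBall_zero_iff.2 (α.norm_coe_le_norm t)))

lemma hasFDerivAt_N0 {g : E → B} (hg : ContDiffOn ℝ 1 g (ball 0 r)) {α : A →ᵇ E}
    (hα : α ∈ ball (0 : A →ᵇ E) r) : HasFDerivAt (N0 g) (apB (N0 (fderiv ℝ g) α)) α := by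
  have hgc : ContinuousOn g (ball 0 r) := hg.continuousOn
  have hDc : ContinuousOn (fderiv ℝ g) (ball 0 r) :=
    hg.continuousOn_fderiv_of_isOpen isOpen_ball le_rfl
  rw [hasFDerivAt_iff_isLittleO_nhds_zero, Asymptotics.isLittleO_iff]
  intro c hc
  have hcont : ContinuousAt (N0 (A := A) (fderiv ℝ g)) α :=
    (continuousOn_N0 hDc).continuousAt (isOpen_ball.mem_nhds hα)
  have h1 : ∀ᶠ β in 𝓝 α, dist (N0 (A := A) (fderiv ℝ g) β) (N0 (fderiv ℝ g) α) < c ∧
      β ∈ ball (0 : A →ᵇ E) r :=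
    (hcont.eventually (Metric.ball_mem_nhds _ hc)).and (isOpen_ball.mem_nhds hα)
  obtain ⟨δ, hδ, hball⟩ := Metric.eventually_nhds_iff_ball.1 h1
  filter_upwards [Metric.ball_mem_nhds (0 : A →ᵇ E) hδ] with h hh
  have hαh : α + h ∈ Metric.ball α δ := by simpa using hh
  rw [BoundedContinuousFunction.norm_le (by positivity)]
  intro t
  have hseg : ∀ y ∈ segment ℝ (α t) (α t + h t), ∃ β ∈ Metric.ball α δ, β t = y := by
    intro y hy
    rw [segment_eq_image'] at hy
    obtain ⟨s, hs, rfl⟩ := hy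
    refine ⟨α + s • h, ?_, by simp⟩
    simp only [Metric.mem_ball, dist_self_add_left, dist_zero_right] at hh ⊢
    rw [norm_smul, Real.norm_of_nonneg hs.1]
    exact lt_of_le_of_lt (mul_le_of_le_one_left (norm_nonneg _) hs.2) hh
  show ‖N0 g (α + h) t - N0 g α t - N0 (fderiv ℝ g) α t (h t)‖ ≤ _
  rw [N0_apply hgc (hball _ hαh).2, N0_apply hgc hα, N0_apply hDc hα]
  have key := (convex_segment (α t) (α t + h t)).norm_image_sub_le_of_norm_hasFDerivWithin_le'
    (f := g) (f' := fderiv ℝ g) (φ := fderiv ℝ g (α t)) (C := c)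
    (x := α t) (y := α t + h t) ?_ ?_ (left_mem_segment _ _ _) (right_mem_segment _ _ _)
  · simp only [add_sub_cancel_left] at key
    refine key.trans ?_
    gcongr
    exact h.norm_coe_le_norm t
  · intro y hy
    obtain ⟨β, hβ, rfl⟩ := hseg y hy
    exact ((hg.differentiableOn one_ne_zero).differentiableAt (isOpen_ball.mem_nhds
      (mem_ball_apply (hball β hβ).2 t))).hasFDerivAt.hasFDerivWithinAt
  · intro y hy
    obtain ⟨β, hβ, rfl⟩ := hseg y hy
    have h3 := (BoundedContinuousFunction.dist_coe_le_dist t).trans_lt (hball β hβ).1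
    rw [N0_apply hDc (hball β hβ).2, N0_apply hDc hα, dist_eq_norm] at h3
    exact h3.le

lemma contDiffOn_N0_nat (n : ℕ) : ∀ {B : Type} [NormedAddCommGroup B] [NormedSpace ℝ B]
    {g : E → B}, ContDiffOn ℝ n g (ball 0 r) → ContDiffOn ℝ n (N0 (A := A) g) (ball 0 r) := by
  induction n with
  | zero =>
    intro B _ _ g hg
    simp only [Nat.cast_zero, contDiffOn_zero] at hg ⊢
    exact continuousOn_N0 hg
  | succ n ih =>
    intro B _ _ g hg
    push_cast at hg ⊢
    have h1 : ContDiffOn ℝ 1 g (ball 0 r) := hg.of_le le_add_self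
    have hD := ((contDiffOn_succ_iff_fderiv_of_isOpen isOpen_ball).1 hg).2.2
    rw [contDiffOn_succ_iff_fderiv_of_isOpen isOpen_ball]
    refine ⟨fun α hα => (hasFDerivAt_N0 h1 hα).differentiableAt.differentiableWithinAt,
      by simp, ?_⟩
    have h3 : ContDiff ℝ n (fun L : A →ᵇ (E →L[ℝ] B) => (apB L : (A →ᵇ E) →L[ℝ] (A →ᵇ B))) := by
      fun_prop
    have h2 : ContDiffOn ℝ n (fun α : A →ᵇ E => apB (N0 (fderiv ℝ g) α)) (ball 0 r) :=
      h3.comp_contDiffOn (ih hD)
    exact h2.congr fun α hα => (hasFDerivAt_N0 h1 hα).fderiv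

lemma contDiffOn_N0 {g : E → B} (hg : ContDiffOn ℝ ∞ g (ball 0 r)) :
    ContDiffOn ℝ ∞ (N0 (A := A) g) (ball 0 r) :=
  contDiffOn_infty.2 fun n => contDiffOn_N0_nat n (contDiffOn_infty.1 hg n)

end bcf

variable {A K E F : Type} [TopologicalSpace A] [TopologicalSpace K] [CompactSpace K]
  [NormedAddCommGroup E] [NormedSpace ℝ E] [NormedAddCommGroup F] [NormedSpace ℝ F]

/-- evaluation along `p` -/
def evP (p : C(A, K)) : (A →ᵇ C(K, F)) →L[ℝ] (A →ᵇ F) :=
  LinearMap.mkContinuous
    { toFun := fun θ => BoundedContinuousFunction.ofNormedAddCommGroup (fun x => θ x (p x))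
        (θ.continuous.eval p.continuous) ‖θ‖ fun x =>
          ((θ x).norm_coe_le_norm _).trans (θ.norm_coe_le_norm x)
      map_add' := by intros; ext; simp
      map_smul' := by intros; ext; simp } 1 (by
    intro θ
    rw [one_mul]
    exact (BoundedContinuousFunction.norm_le (norm_nonneg _)).2 fun x =>
      ((θ x).norm_coe_le_norm _).trans (θ.norm_coe_le_norm x))

lemma evP_apply (p : C(A, K)) (θ : A →ᵇ C(K, F)) (x : A) : evP p θ x = θ x (p x) := rfl

/-- `e ↦ (k ↦ a k • e)` -/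
def sc (a : C(K, ℝ)) : E →L[ℝ] C(K, E) :=
  LinearMap.mkContinuous
    { toFun := fun e => ⟨fun k => a k • e, a.continuous.smul continuous_const⟩
      map_add' := by intros; ext; simp
      map_smul' := by intros; ext; simp [smul_comm (a _)] } ‖a‖ (by
    intro e
    rw [ContinuousMap.norm_le _ (by positivity)]
    intro k
    exact (norm_smul_le (a k) e).trans
      (mul_le_mul_of_nonneg_right (a.norm_coe_le_norm k) (norm_nonneg _)))

lemma sc_apply (a : C(K, ℝ)) (e : E) (k : K) : sc a e k = a k • e := rfl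

open Crest.Agent.Lib.ODEFlow

lemma cont_J (Θ : C(I × I, C(K, F))) :
    Continuous fun q : (K × I) × ℝ => Θ (pr q.2, q.1.2) q.1.1 :=
  (Θ.continuous.comp ((continuous_projIcc.comp continuous_snd).prodMk continuous_fst.snd)).eval
    continuous_fst.fst

lemma cont_J1 (Θ : C(I × I, C(K, F))) (q : K × I) : Continuous fun s : ℝ => Θ (pr s, q.2) q.1 :=
  (cont_J Θ).comp (Continuous.prodMk_right q)

/-- integration in the first variable -/
def J : C(I × I, C(K, F)) →L[ℝ] C(K × I, F) :=
  LinearMap.mkContinuous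
    { toFun := fun Θ => ⟨fun q => ∫ s in (0 : ℝ)..1, Θ (pr s, q.2) q.1,
        intervalIntegral.continuous_parametric_intervalIntegral_of_continuous' (cont_J Θ) 0 1⟩
      map_add' := fun Θ Θ' => by
        ext q
        exact intervalIntegral.integral_add ((cont_J1 Θ q).intervalIntegrable _ _)
          ((cont_J1 Θ' q).intervalIntegrable _ _)
      map_smul' := fun c Θ => by
        ext q
        exact intervalIntegral.integral_smul c fun s => Θ (pr s, q.2) q.1 } 1 (by
    intro Θ
    rw [ContinuousMap.norm_le _ (by positivity)]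
    intro q
    have h1 : ‖∫ s in (0 : ℝ)..1, Θ (pr s, q.2) q.1‖ ≤ ‖Θ‖ * |(1 : ℝ) - 0| :=
      intervalIntegral.norm_integral_le_of_norm_le_const fun s _ =>
        (ContinuousMap.norm_coe_le_norm _ _).trans (Θ.norm_coe_le_norm _)
    simpa using h1)

lemma J_apply (Θ : C(I × I, C(K, F))) (q : K × I) :
    J Θ q = ∫ s in (0 : ℝ)..1, Θ (pr s, q.2) q.1 := rfl

/-- `(s, ε) ↦ s ε` -/
def mu1 : C(I × I, ℝ) := ⟨fun q => q.1 * q.2, by fun_prop⟩

lemma sc_mu_mem {r : ℝ} {e : E} (he : e ∈ ball (0 : E) r) : sc mu1 e ∈ mapsIn (I × I) (ball 0 r) := by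
  intro q
  rw [mem_ball_zero_iff] at he ⊢
  refine lt_of_le_of_lt ?_ he
  rw [sc_apply, norm_smul]
  refine mul_le_of_le_one_left (norm_nonneg _) ?_
  show ‖(q.1 : ℝ) * q.2‖ ≤ 1
  rw [Real.norm_of_nonneg (mul_nonneg q.1.2.1 q.2.2.1)]
  exact mul_le_one₀ q.1.2.2 q.2.2.1 q.2.2.2

end Nem

open Nem Crest.Agent.Lib.ODEFlow

theorem nemS : NemS := by
  intro A K E F _ _ _ _ _ _ _ _ p g r hg
  refine ⟨fun η => evP p (N0 g η), (evP p).contDiff.comp_contDiffOn (contDiffOn_N0 hg),
    fun η hη x => ?_, fun η hη ζ x => ?_⟩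
  · rw [evP_apply, N0_apply hg.continuousOn hη]
  · have h1 : ContDiffOn ℝ 1 g (ball 0 r) := hg.of_le (by exact_mod_cast le_top)
    have h := (evP (F := F) p).hasFDerivAt.comp η (hasFDerivAt_N0 h1 hη)
    rw [show fderiv ℝ (fun η => evP p (N0 g η)) η = _ from h.fderiv,
      ContinuousLinearMap.comp_apply, evP_apply, apB_apply,
      N0_apply (h1.continuousOn_fderiv_of_isOpen isOpen_ball le_rfl) hη]

theorem hadS : HadS := by
  intro K E F _ _ _ _ _ _ _ h r hr hh
  have hD : ContDiffOn ℝ ∞ (fderiv ℝ h) (ball 0 r) := hh.fderiv_of_isOpen isOpen_ball (by simp)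
  have h0 : (0 : E) ∈ ball (0 : E) r := mem_ball_self hr
  have h3 : ContDiff ℝ ∞ (fun L : C(I × I, E →L[ℝ] C(K, F)) =>
      (applyB L : C(I × I, E) →L[ℝ] C(I × I, C(K, F)))) := by fun_prop
  have h4 : ContDiffOn ℝ ∞ (fun e : E => nem (fderiv ℝ h) (sc mu1 e)) (ball 0 r) :=
    (contDiffOn_nem (K := I × I) isOpen_ball hD).comp (sc (E := E) mu1).contDiff.contDiffOn
      fun _ he => sc_mu_mem he
  have hΦ : ContDiffOn ℝ ∞ (fun e : E => (applyB (nem (fderiv ℝ h) (sc mu1 e)) :
      C(I × I, E) →L[ℝ] C(I × I, C(K, F)))) (ball 0 r) := h3.comp_contDiffOn h4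
  have hΘ : ∀ e ∈ ball (0 : E) r, ∀ (e' : E) (q : I × I),
      applyB (nem (fderiv ℝ h) (sc mu1 e)) (sc 1 e') q = fderiv ℝ h (((q.1 : ℝ) * q.2) • e) e' := by
    intro e he e' q
    rw [applyB_apply, nem_apply hD.continuousOn (sc_mu_mem he), sc_apply, sc_apply,
      ContinuousMap.one_apply, one_smul]
    rfl
  refine ⟨fun e => J (applyB (nem (fderiv ℝ h) (sc mu1 e)) (sc 1 e)),
    (J (K := K) (F := F)).contDiff.comp_contDiffOn
      (hΦ.clm_apply (sc (E := E) (1 : C(I × I, ℝ))).contDiff.contDiffOn),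
    by simp only [map_zero], fun e he z ε => ?_, fun e z ε => ?_⟩
  · rw [J_apply, ← intervalIntegral.integral_smul]
    refine (intervalIntegral.integral_eq_sub_of_hasDerivAt (f := fun s : ℝ => h ((s * ε) • e) z)
      (fun s hs => ?_) (((cont_J1 _ (z, ε)).const_smul (ε : ℝ)).intervalIntegrable _ _)).trans ?_
    · rw [uIcc_of_le zero_le_one] at hs
      have e1 : ((pr s : I) : ℝ) = s := by rw [pr, projIcc_of_mem zero_le_one hs]
      have hm : (s * ε) • e ∈ ball (0 : E) r := sc_mu_mem he (⟨s, hs⟩, ε)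
      have d1 : HasDerivAt (fun s : ℝ => (s * ε) • e) ((ε : ℝ) • e) s := by
        simpa using ((hasDerivAt_id s).mul_const (ε : ℝ)).smul_const e
      have d2 := ((hh.differentiableOn (by simp)).differentiableAt
        (isOpen_ball.mem_nhds hm)).hasFDerivAt.comp_hasDerivAt s d1
      have d3 := (ContinuousMap.evalCLM ℝ z).hasFDerivAt.comp_hasDerivAt s d2
      rw [Pi.smul_apply, hΘ e he, e1]
      rw [map_smul, map_smul] at d3
      exact d3
    · simp
  · have d1 := ((hΦ.differentiableOn (by simp)).differentiableAt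
      (isOpen_ball.mem_nhds h0)).hasFDerivAt.clm_apply (sc (E := E) (1 : C(I × I, ℝ))).hasFDerivAt
    have d2 := (J (K := K) (F := F)).hasFDerivAt.comp (0 : E) d1
    rw [show fderiv ℝ (fun e => J (applyB (nem (fderiv ℝ h) (sc mu1 e)) (sc 1 e))) 0 = _ from d2.fderiv]
    simp only [ContinuousLinearMap.comp_apply, map_zero (sc _),
      map_zero (ContinuousLinearMap.flip _), add_zero]
    have := hΘ 0 h0 e
    rw [map_zero] at this
    rw [J_apply]
    simp only [this, smul_zero, intervalIntegral.integral_const, sub_zero, one_smul]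

end Crest.Agent.N221.H
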