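import Crest.Agent.N221.H.Defs
import Crest.Agent.N221.C.Loc
import Crest.Agent.N221.U.Ex
import Crest.Agent.N221.U.Dn
import Crest.Agent.N221.En.All

/-! Row 221, block H (helper48): expansiveness from one point (`uniqS`) and the splitting of
`ldet` (`splitS`). -/

set_option autoImplicit false

open MeasureTheory Set Filter Topology Metric
open scoped ContDiff RealInnerProductSpace ENNReal BoundedContinuousFunction
open Crest.GeometryTopology.Submanifold
open Crest.Agent.R241.DDefs Crest.Agent.R241.D2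
open Crest.Agent.R208.J Crest.Agent.R208.L

noncomputable section

namespace Crest.Agent.N221.H

theorem uniqS (hC : CovS) : UniqS := by
  intro n N a S G H
  obtain ⟨C⟩ := hC n N a S G H
  obtain ⟨ε₀, hε₀, hl⟩ := C.lift_close H
  refine ⟨ε₀, hε₀, fun w hw w' hw' h1 s hs hd => ?_⟩
  obtain ⟨x, hx, hv⟩ := C.exists_un hw
  have e : (C.pr x, w.2) = w := by rw [hx]
  have e' : (C.pr x, w'.2) = w' := by rw [hx, h1]
  have hv' : C.Un x w'.2 := by
    unfold Cov.Un
    rw [e']
    exact hw'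
  have hm := Cov.Un.mem C hv
  have hm' := Cov.Un.mem C hv'
  have key : ∀ t, 0 ≤ t → ‖t • w.2 - (t + s) • w'.2‖ ≤ 2 * ε₀ := by
    intro t ht
    have h2 := hl ε₀ le_rfl (C.gd x w.2) (fun u => C.gd x w'.2 (u + s)) 0 t
      (C.contDiff_gd_t _ _).continuous.continuousOn
      ((C.contDiff_gd_t _ _).continuous.comp (by fun_prop)).continuousOn
      (by rw [C.gd_zero, zero_add, Cov.Un.dd_gd_zero C hv']; linarith)
      (fun u hu => by
        rw [C.pr_gd hm, C.pr_gd hm', e, e', ← dist_eq_norm]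
        exact hd u hu.1) t ⟨ht, le_rfl⟩
    have h3 := C.lg_sub_le H.a_pos.le x (C.gd x w.2 t) (C.gd x w'.2 (t + s))
    have h4 : C.lg x (C.gd x w.2 t) = t • w.2 := C.lg_ex x _ ((G.T _).smul_mem _ hm)
    have h5 : C.lg x (C.gd x w'.2 (t + s)) = (t + s) • w'.2 :=
      C.lg_ex x _ ((G.T _).smul_mem _ hm')
    rw [h4, h5] at h3
    exact h3.trans h2
  refine Prod.ext h1 ?_
  by_contra hne
  have hpos : 0 < ‖w.2 - w'.2‖ := norm_pos_iff.2 (sub_ne_zero.2 hne)
  have ht : 0 ≤ (3 * ε₀ + 1) / ‖w.2 - w'.2‖ := by positivity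
  have h4 := key _ ht
  have h5 : ((3 * ε₀ + 1) / ‖w.2 - w'.2‖) • (w.2 - w'.2) =
      (((3 * ε₀ + 1) / ‖w.2 - w'.2‖) • w.2 - ((3 * ε₀ + 1) / ‖w.2 - w'.2‖ + s) • w'.2) +
        s • w'.2 := by
    rw [smul_sub, add_smul]
    abel
  have h6 := norm_add_le
    (((3 * ε₀ + 1) / ‖w.2 - w'.2‖) • w.2 - ((3 * ε₀ + 1) / ‖w.2 - w'.2‖ + s) • w'.2) (s • w'.2)
  rw [← h5, norm_smul, norm_smul, Real.norm_of_nonneg ht, div_mul_cancel₀ _ hpos.ne',
    show ‖w'.2‖ = 1 from hw'.2, mul_one, Real.norm_eq_abs] at h6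
  linarith

theorem splitS (hSys : SysS) (hVol : VolS) (hLps : LpsS) : SplitS := by
  intro n N a S G H h α hα hcob
  obtain ⟨hc, -, hfl⟩ := ldetS uExS n N a S G H
  obtain ⟨-, -, hd⟩ := En.main _ (US G) (ph G) (mu G) (tau G) (hSys n N a S G H)
    (hVol n N a S G H).1 (hVol n N a S G H).2 (hLps n N a S G H)
  have hr : Continuous (rev : TT N → TT N) := continuous_fst.prodMk continuous_snd.neg
  set g : TT N → ℝ := fun q => ldet G q - α q - α (rev q) with hg
  have hgc : ContinuousOn g (US G) :=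
    (hc.sub hα).sub (hα.comp hr.continuousOn fun q hq => rev_US hq)
  have hinv : ∀ q ∈ US G, ∀ t, g (ph G t q) = g q := by
    intro q hq t
    have h1 := hfl q hq t
    have h2 := hcob q hq t
    have h3 := hcob (rev q) (rev_US hq) (-t)
    have h4 : ph G (-t) (rev q) = rev (ph G t q) := by
      unfold ph
      rw [fl_rev' hq.1, neg_neg]
    rw [h4] at h3
    have h5 : ldet G (ph G t q) = ldet G (fl G (q, t)) := rfl
    simp only [hg]
    rw [h5]
    linarith
  rcases (US G).eq_empty_or_nonempty with he | ⟨q0, hq0⟩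
  · exact ⟨0, fun q hq => by rw [he] at hq; exact hq.elim⟩
  obtain ⟨z, hz, hbi⟩ := closure_nonempty_iff.1 ⟨q0, hd hq0⟩
  refine ⟨g z, fun q hq => ?_⟩
  have hcl : q ∈ closure {y | y ∈ US G ∧ g y = g z} := by
    rw [Metric.mem_closure_iff]
    intro ε hε
    obtain ⟨⟨t, -, ht⟩, -⟩ := hbi q hq ε hε 0
    exact ⟨ph G t z, ⟨fl_US hz t, hinv z hz t⟩, by rwa [dist_comm]⟩
  have hclosed : IsClosed {y | y ∈ US G ∧ g y = g z} :=
    hgc.preimage_isClosed_of_isClosed (isClosed_US G) (isClosed_singleton (x := g z))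
  have h1 := (hclosed.closure_subset hcl).2
  simp only [hg] at h1 ⊢
  linarith

end Crest.Agent.N221.H
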