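import Crest.Agent.N221.H.Defs
import Crest.Agent.N221.U.Ex
import Crest.Agent.N221.U.Ju
import Crest.Agent.N221.U.Lip
import Crest.Agent.Lib.ODEFlow

/-!
Row 221, horospherical jets: the transfer function is smooth along the weak stable leaves
(helper98, task 858).
-/

set_option autoImplicit false

open MeasureTheory Set Filter Topology Metric
open scoped ContDiff RealInnerProductSpace ENNReal BoundedContinuousFunction
open Crest.GeometryTopology.Submanifold
open Crest.Agent.R241.DDefs Crest.Agent.R241.D2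
open Crest.Agent.R208.J Crest.Agent.R208.L
open Crest.Agent.Lib.ODEFlow (nem mapsIn nem_apply contDiffOn_nem)

noncomputable section

namespace Crest.Agent.N221.H

namespace Cb

section abstract

variable {K : Type} [TopologicalSpace K] [CompactSpace K]
  {Λ E F : Type} [NormedAddCommGroup Λ] [NormedSpace ℝ Λ] [NormedAddCommGroup E] [NormedSpace ℝ E]
  [NormedAddCommGroup F] [NormedSpace ℝ F]

theorem contDiffOn_pair {f : Λ → C(K, E)} {g : Λ → C(K, F)} {s : Set Λ}
    (hf : ContDiffOn ℝ ∞ f s) (hg : ContDiffOn ℝ ∞ g s) :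
    ContDiffOn ℝ ∞ (fun y => (f y).prodMk (g y)) s := by
  have h1 := ((ContinuousLinearMap.inl ℝ E F).compLeftContinuous ℝ K).contDiff.comp_contDiffOn hf
  have h2 := ((ContinuousLinearMap.inr ℝ E F).compLeftContinuous ℝ K).contDiff.comp_contDiffOn hg
  refine (h1.add h2).congr fun y _ => ContinuousMap.ext fun z => ?_
  change (f y z, g y z) = (f y z, 0) + (0, g y z)
  simp

/-- superposition with a function which is smooth on an open set -/
theorem exists_comp {f : Λ → C(K, E)} {s : Set Λ} (hf : ContDiffOn ℝ ∞ f s) {g : E → F}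
    {O : Set E} (hO : IsOpen O) (hg : ContDiffOn ℝ ∞ g O) (h : ∀ y ∈ s, ∀ z, f y z ∈ O) :
    ∃ B : Λ → C(K, F), ContDiffOn ℝ ∞ B s ∧ ∀ y ∈ s, ∀ z, B y z = g (f y z) :=
  ⟨fun y => nem g (f y), (contDiffOn_nem (n := ⊤) hO hg).comp hf h,
    fun y hy z => nem_apply hg.continuousOn (h y hy) z⟩

omit [CompactSpace K] in
theorem bd_half (b : K × ℕ →ᵇ ℝ) (z : K) (k : ℕ) :
    ‖(1 / 2 : ℝ) ^ (k + 1) * b (z, k)‖ ≤ (1 / 2 : ℝ) ^ (k + 1) * ‖b‖ := by
  rw [norm_mul, Real.norm_of_nonneg (by positivity)]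
  exact mul_le_mul_of_nonneg_left (b.norm_coe_le_norm _) (by positivity)

theorem hasSum_half (c : ℝ) : HasSum (fun k : ℕ => (1 / 2 : ℝ) ^ (k + 1) * c) c := by
  have := (hasSum_geometric_two.mul_left (1 / 2 : ℝ)).mul_right c
  rw [show (1 / 2 : ℝ) * 2 * c = c by ring] at this
  refine this.congr_fun ?_ |> id
  intro k
  rw [pow_succ']

omit [CompactSpace K] in
theorem summable_half (b : K × ℕ →ᵇ ℝ) (z : K) :
    Summable fun k : ℕ => (1 / 2 : ℝ) ^ (k + 1) * b (z, k) :=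
  Summable.of_norm_bounded (hasSum_half ‖b‖).summable (bd_half b z)

/-- the weighted sum over the orbit -/
def Sig (K : Type) [TopologicalSpace K] [CompactSpace K] : (K × ℕ →ᵇ ℝ) →L[ℝ] C(K, ℝ) :=
  LinearMap.mkContinuous
    { toFun := fun b => ⟨fun z => ∑' k : ℕ, (1 / 2 : ℝ) ^ (k + 1) * b (z, k),
        continuous_tsum (fun k => by fun_prop) (hasSum_half ‖b‖).summable
          fun k z => bd_half b z k⟩
      map_add' := fun b c => ContinuousMap.ext fun z => by
        simp only [BoundedContinuousFunction.add_apply, mul_add, ContinuousMap.coe_mk,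
          ContinuousMap.add_apply]
        exact (summable_half b z).tsum_add (summable_half c z)
      map_smul' := fun c b => ContinuousMap.ext fun z => by
        simp only [BoundedContinuousFunction.smul_apply, smul_eq_mul, ContinuousMap.coe_mk,
          ContinuousMap.smul_apply, RingHom.id_apply, ← tsum_mul_left]
        exact tsum_congr fun k => by ring } 1
    fun b => by
      rw [one_mul, ContinuousMap.norm_le _ (norm_nonneg b)]
      exact fun z => tsum_of_norm_bounded (hasSum_half ‖b‖) (bd_half b z)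

theorem Sig_apply (b : K × ℕ →ᵇ ℝ) (z : K) :
    Sig K b z = ∑' k : ℕ, (1 / 2 : ℝ) ^ (k + 1) * b (z, k) := rfl

theorem tsum_tele {c d : ℕ → ℝ} (hd : Summable d) (h : ∀ k, d k = c (k + 1) - c k)
    (h0 : Tendsto c atTop (𝓝 0)) : ∑' k, d k = -c 0 := by
  refine tendsto_nhds_unique hd.hasSum.tendsto_sum_nat ?_
  have := h0.sub_const (c 0)
  rw [zero_sub] at this
  refine this.congr fun k => ?_
  simp only [h, Finset.sum_range_sub]

theorem contDiff_det [FiniteDimensional ℝ E] : ContDiff ℝ ∞ (fun T : E →L[ℝ] E => T.det) := by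
  have h : (fun T : E →L[ℝ] E => T.det) = fun T => ∑ σ : Equiv.Perm (Fin (Module.finrank ℝ E)),
      ((Equiv.Perm.sign σ : ℤ) : ℝ) * ∏ k, (Module.finBasis ℝ E).coord (σ k)
        (T (Module.finBasis ℝ E k)) := by
    funext T
    change LinearMap.det (T : E →ₗ[ℝ] E) = _
    rw [← LinearMap.det_toMatrix (Module.finBasis ℝ E), Matrix.det_apply']
    simp [LinearMap.toMatrix_apply]
  rw [h]
  refine ContDiff.sum fun σ _ => contDiff_const.mul (contDiff_prod fun k _ => ?_)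
  exact ((LinearMap.toContinuousLinearMap ((Module.finBasis ℝ E).coord (σ k))).comp
    (ContinuousLinearMap.apply ℝ E (Module.finBasis ℝ E k))).contDiff

/-- a continuous map that vanishes at `0` is small near `0` -/
theorem exists_small {f : Λ → E} {r : ℝ} (hr : 0 < r) (hf : ContDiffOn ℝ ∞ f (ball 0 r))
    (h0 : f 0 = 0) {ε : ℝ} (hε : 0 < ε) : ∃ r1 > 0, ∀ y ∈ ball (0 : Λ) r1, ‖f y‖ < ε := by
  obtain ⟨δ, hδ, h⟩ := Metric.continuousAt_iff.1
    (hf.continuousOn.continuousAt (ball_mem_nhds 0 hr)) ε hε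
  exact ⟨δ, hδ, fun y hy => by simpa [h0] using h hy⟩

end abstract

variable {n N : ℕ} {a : ℝ} {S : Set (Euc N)} {G : Geo n N (-(a ^ 2)) S}

/-- determinant of the Jacobi tensor with slope `-A` -/
def dt (G : Geo n N (-(a ^ 2)) S) (p : TT N × Op N × ℝ) : ℝ :=
  (Jac G p.1 (Pv G p.1) (-p.2.1) p.2.2 + (ContinuousLinearMap.id ℝ (Euc N) - Pv G p.1)).det

/-- the domain of the flows -/
def O0 (G : Geo n N (-(a ^ 2)) S) : Set (TT N × Op N × ℝ) :=
  {p | ((p.1, ContinuousLinearMap.id ℝ (Euc N)), p.2.2) ∈ dY G ∧ (p.1, p.2.2) ∈ fd G}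

theorem isOpen_O0 : IsOpen (O0 G) :=
  ((isOpen_dY G).preimage (f := fun p : TT N × Op N × ℝ =>
    ((p.1, ContinuousLinearMap.id ℝ (Euc N)), p.2.2)) (by fun_prop)).inter
    ((isOpen_fd G).preimage (f := fun p : TT N × Op N × ℝ => (p.1, p.2.2)) (by fun_prop))

theorem contDiffAt_dt {p : TT N × Op N × ℝ} (hp : p ∈ O0 G) : ContDiffAt ℝ ∞ (dt G) p := by
  have h0 : ContDiff ℝ ∞ (fun L : Op N => L.adjoint) :=
    (ContinuousLinearMap.adjoint (𝕜 := ℝ) (E := Euc N)
      (F := Euc N)).toContinuousLinearEquiv.contDiff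
  have h1 : ContDiffAt ℝ ∞ (fun p : TT N × Op N × ℝ => PT G p.1 p.2.2) p :=
    (ContDiffAt.comp (g := fY G) (f := fun p : TT N × Op N × ℝ =>
      ((p.1, ContinuousLinearMap.id ℝ (Euc N)), p.2.2)) p (contDiffAt_fY G hp.1)
      (by fun_prop)).snd
  have h2 : ContDiffAt ℝ ∞ (fun p : TT N × Op N × ℝ => PTi G p.1 p.2.2) p :=
    h0.contDiffAt.comp p h1
  have h3 : ContDiffAt ℝ ∞ (fun p : TT N × Op N × ℝ => fderiv ℝ (fl G) (p.1, p.2.2)) p :=
    ContDiffAt.comp (g := fderiv ℝ (fl G)) (f := fun p : TT N × Op N × ℝ => (p.1, p.2.2)) p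
      ((contDiffAt_fl G hp.2).fderiv_right (by simp)) (by fun_prop)
  have h4 : ContDiff ℝ ∞ (fun p : TT N × Op N × ℝ => Pv G p.1) := contDiff_Pv.comp contDiff_fst
  have h5 : ContDiff ℝ ∞ (fun p : TT N × Op N × ℝ => dP G p.1) :=
    (contDiff_dP G).comp contDiff_fst
  have h6 : ContDiff ℝ ∞ (fun p : TT N × Op N × ℝ =>
      (Pv G p.1).prod (dP G p.1 ∘L Pv G p.1 + -p.2.1)) :=
    (ContinuousLinearMap.prodₗᵢ ℝ (𝕜 := ℝ) (E := Euc N) (F := Euc N)
      (G := Euc N)).contDiff.comp (h4.prodMk ((h5.clm_comp h4).add contDiff_snd.fst.neg))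
  exact contDiff_det.contDiffAt.comp p ((h2.clm_comp (contDiffAt_const.clm_comp
    (h3.clm_comp (contDiffAt_const.clm_comp h6.contDiffAt)))).add
      (contDiffAt_const.sub h4.contDiffAt))

theorem dt_eq (H : Hyp n N a S) {w : TT N} (hw : w ∈ US G) (t : ℝ) :
    dt G (w, U G (rev w), t) = Real.exp (St G (-t) (rev w)) := by
  obtain ⟨b, -, h⟩ := juS uExS n N a S G H
  rw [← (h _ (rev_US hw)).2.2.2.2.2.2, ← (h w hw).2.2.2.1, Pv_rev]
  rfl

variable [CompactSpace (US G)] {ρ : Euc N → Euc N} {T r : ℝ} {W : Euc N → C(US G, Euc N)}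
  {β : Euc N → C(US G, ℝ)} {u : Euc N → (US G × ℕ →ᵇ TT N)}

theorem exists_pt (h : IsHor G ρ T r W β u) : ∃ P : Euc N → C(US G, TT N),
    ContDiffOn ℝ ∞ P (ball 0 r) ∧ ∀ y ∈ ball (0 : Euc N) r, ∀ z, P y z = pt ρ W y z := by
  let b : C(US G, Euc N) := ⟨fun z => (z : TT N).1, by fun_prop⟩
  have h1 : ContDiff ℝ ∞ fun y : Euc N => b + ContinuousLinearMap.const ℝ (US G) y :=
    contDiff_const.add (ContinuousLinearMap.const ℝ (US G) (M := Euc N)).contDiff
  obtain ⟨B, hB, e⟩ := exists_comp (s := ball 0 r) h1.contDiffOn (g := ρ)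
    (O := ⋃ x ∈ S, ball x r) (isOpen_biUnion fun _ _ => isOpen_ball)
    (fun x hx => by
      obtain ⟨x0, h0, hx⟩ := mem_iUnion₂.1 hx
      have := h.ret.smooth x0 h0 (x - x0) (by rwa [mem_ball_zero_iff, ← mem_ball_iff_norm])
      rw [add_sub_cancel] at this
      exact this.contDiffWithinAt)
    (fun y hy z => mem_biUnion z.2.1.1 (by
      rw [mem_ball_iff_norm]
      change ‖(z : TT N).1 + y - (z : TT N).1‖ < r
      rwa [add_sub_cancel_left, ← mem_ball_zero_iff]))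
  exact ⟨fun y => (B y).prodMk (W y), contDiffOn_pair hB h.smW,
    fun y hy z => Prod.ext (e y hy z) rfl⟩

/-- the increments of the transfer function are smooth -/
theorem exists_incr (H : Hyp n N a S) (h : IsHor G ρ T r W β u) {r' : ℝ} (hr : r' ≤ r)
    {A : Euc N → C(US G, Op N)} (hA : ContDiffOn ℝ ∞ A (ball 0 r'))
    (eA : ∀ y ∈ ball (0 : Euc N) r', ∀ z : US G, A y z = U G (rev (pt ρ W y z)))
    {c : ℝ} {α : TT N → ℝ} (hα : ∀ z ∈ US G, ∀ t : ℝ, St G t z - c * t = α z - α (ph G t z))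
    {γ : Euc N → C(US G, ℝ)} (hγ : ContDiffOn ℝ ∞ γ (ball 0 r')) :
    ∃ D : Euc N → C(US G, ℝ), ContDiffOn ℝ ∞ D (ball 0 r') ∧ ∀ y ∈ ball (0 : Euc N) r',
      ∀ z : US G, D y z = α (rev (fl G (pt ρ W y z, γ y z))) - α (rev (pt ρ W y z)) := by
  obtain ⟨P, hP, eP⟩ := exists_pt h
  have sub := ball_subset_ball (x := (0 : Euc N)) hr
  have c0 : ContinuousOn (dt G) (O0 G) := fun p hp =>
    (contDiffAt_dt hp).continuousAt.continuousWithinAt
  have e0 : ∀ y ∈ ball (0 : Euc N) r', ∀ z : US G, ((P y).prodMk ((A y).prodMk (γ y))) z =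
      (pt ρ W y z, U G (rev (pt ρ W y z)), γ y z) := fun y hy z =>
    Prod.ext (eP y (sub hy) z) (Prod.ext (eA y hy z) rfl)
  obtain ⟨D, hD, e⟩ := exists_comp (contDiffOn_pair (hP.mono sub) (contDiffOn_pair hA hγ))
    (g := fun p => -Real.log (dt G p) - c * p.2.2) (O := O0 G ∩ dt G ⁻¹' Ioi 0)
    (c0.isOpen_inter_preimage isOpen_O0 isOpen_Ioi)
    (fun p hp => (((contDiffAt_dt hp.1).log (ne_of_gt hp.2)).neg.sub
      (by fun_prop)).contDiffWithinAt)
    (fun y hy z => by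
      have m := h.mem y (sub hy) z
      rw [e0 y hy z]
      refine ⟨⟨complete_Y G m.1 _, complete G m.1 _⟩, ?_⟩
      rw [mem_preimage, dt_eq H m]
      exact Real.exp_pos _)
  refine ⟨D, hD, fun y hy z => ?_⟩
  have m := h.mem y (sub hy) z
  have := hα _ (rev_US m) (-γ y z)
  rw [ph, fl_rev' m.1, neg_neg] at this
  rw [e y hy z, e0 y hy z, dt_eq H m, Real.log_exp]
  linarith

omit [CompactSpace (US G)] in
theorem half_le (k : ℕ) : ‖(1 / 2 : ℝ) ^ (k + 1)‖ ≤ 1 := by
  rw [Real.norm_of_nonneg (by positivity)]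
  exact pow_le_one₀ (by norm_num) (by norm_num)

theorem dist_orbit (h : IsHor G ρ T r W β u) {y : Euc N} (hy : y ∈ ball (0 : Euc N) r)
    (z : US G) (k : ℕ) : dist (fl G (pt ρ W y z, β y z + (k + 1) * T)) (fl G (z, (k + 1) * T)) ≤
      (1 / 2 : ℝ) ^ (k + 1) * ‖u y‖ := by
  rw [h.orbit y hy, dist_eq_norm, add_sub_cancel_left, norm_smul,
    Real.norm_of_nonneg (by positivity)]
  exact mul_le_mul_of_nonneg_left ((u y).norm_coe_le_norm _) (by positivity)

/-- the orbit of `pt y z` shadows the orbit of `z` -/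
theorem shadow (H : Hyp n N a S) (h : IsHor G ρ T r W β u) {ε : ℝ} (hε : 0 < ε) :
    ∃ r1 > 0, r1 ≤ r ∧ ∀ y ∈ ball (0 : Euc N) r1, ∀ z : US G, |β y z| ≤ ε ∧
      ∀ t, 0 ≤ t → dist (fl G (pt ρ W y z, β y z + t)) (fl G (z, t)) ≤ ε := by
  obtain ⟨L, L0, hL⟩ := lipS n N _ S G H.cpt
  have E0 := Real.exp_pos (L * T)
  obtain ⟨r1, h1, s1⟩ := exists_small h.ret.r_pos h.smβ h.β0 hε
  obtain ⟨r2, h2, s2⟩ := exists_small h.ret.r_pos h.smu h.u0 (div_pos hε E0)
  refine ⟨min r (min r1 r2), lt_min h.ret.r_pos (lt_min h1 h2), min_le_left _ _,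
    fun y hy z => ?_⟩
  rw [mem_ball, lt_min_iff, lt_min_iff] at hy
  refine ⟨((β y).norm_coe_le_norm z).trans (s1 y hy.2.1).le, fun t ht => ?_⟩
  have T0 := h.T_pos
  set k := ⌊t / T⌋₊
  have k1 : (k : ℝ) * T ≤ t := (le_div_iff₀ T0).1 (Nat.floor_le (div_nonneg ht T0.le))
  have k2 : t < (k + 1) * T := (div_lt_iff₀ T0).1 (Nat.lt_floor_add_one _)
  have m := h.mem y hy.1 z
  have e1 : fl G (pt ρ W y z, β y z + t) =
      fl G (fl G (pt ρ W y z, β y z + (k + 1) * T), t - (k + 1) * T) := by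
    rw [← fl_add' G m.1]; congr 2; ring
  have e2 : fl G ((z : TT N), t) = fl G (fl G (z, (k + 1) * T), t - (k + 1) * T) := by
    rw [← fl_add' G z.2.1]; congr 2; ring
  rw [e1, e2]
  refine (hL _ (fl_US m _) _ (fl_US z.2 _) _).1.trans ?_
  have b1 : Real.exp (L * |t - (k + 1) * T|) ≤ Real.exp (L * T) :=
    Real.exp_le_exp.2 (mul_le_mul_of_nonneg_left (abs_le.2 ⟨by linarith, by linarith⟩) L0.le)
  have b2 := (dist_orbit h hy.1 z k).trans
    (mul_le_of_le_one_left (norm_nonneg _) ((le_abs_self _).trans (half_le k)))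
  refine (mul_le_mul b1 (b2.trans (s2 y hy.2.2).le) dist_nonneg E0.le).trans_eq ?_
  field_simp

/-- the points of the orbit of `z` -/
def zk (T : ℝ) (z : US G) (k : ℕ) : US G := ⟨fl G (z, (k + 1) * T), fl_US z.2 _⟩

/-- the orbit of `pt y z` stays on the leaves of the orbit of `z` -/
theorem on_leaf (hU : UniqS) (H : Hyp n N a S) (h : IsHor G ρ T r W β u) {r' : ℝ} (r0 : 0 < r') :
    ∃ r1 > 0, r1 ≤ r ∧ ∀ y ∈ ball (0 : Euc N) r1, ‖u y‖ < r' ∧ ∀ (z : US G) (k : ℕ),
      fl G (pt ρ W y z, β y z + (k + 1) * T) =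
        pt ρ W ((1 / 2 : ℝ) ^ (k + 1) • (u y (z, k)).1) (zk T z k) := by
  obtain ⟨δ, δ0, hδ⟩ := hU n N a S G H
  obtain ⟨r1, h1, r1r, s1⟩ := shadow H h (half_pos δ0)
  obtain ⟨r2, h2, s2⟩ := exists_small h.ret.r_pos h.smu h.u0 (lt_min h1 r0)
  refine ⟨min r1 r2, lt_min h1 h2, (min_le_left _ _).trans r1r, fun y hy => ?_⟩
  rw [mem_ball, lt_min_iff] at hy
  have su := lt_min_iff.1 (s2 y hy.2)
  refine ⟨su.2, fun z k => ?_⟩
  have hy' : y ∈ ball (0 : Euc N) r := hy.1.trans_le r1r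
  set e := (1 / 2 : ℝ) ^ (k + 1) • (u y (z, k)).1 with he
  have e1 : e ∈ ball (0 : Euc N) r1 := by
    rw [mem_ball_zero_iff, he, norm_smul]
    exact (mul_le_of_le_one_left (norm_nonneg _) (half_le k)).trans_lt
      (((norm_fst_le _).trans ((u y).norm_coe_le_norm _)).trans_lt su.1)
  have m := h.mem y hy' z
  have m' := h.mem e (ball_subset_ball r1r e1) (zk T z k)
  have mw := fl_US m (β y z + (k + 1) * T)
  refine hδ _ mw _ m' ?_ (β e (zk T z k)) ((s1 e e1 _).1.trans (half_le_self δ0.le))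
    fun t ht => ?_
  · rw [← h.ret.eq _ mw.1.1, h.orbit y hy']
    rfl
  · have d1 := (s1 y hy.1 z).2 ((k + 1) * T + t) (add_nonneg (by have := h.T_pos; positivity) ht)
    have d2 := (s1 e e1 (zk T z k)).2 t ht
    rw [← add_assoc, fl_add' G m.1, fl_add' G z.2.1] at d1
    rw [add_comm] at d2
    refine le_trans (le_max_left _ _) (Prod.dist_eq.ge.trans
      ((dist_triangle_right _ _ (fl G (zk T z k, t))).trans ?_))
    linarith [show dist _ (fl G (zk T z k, t)) ≤ _ from d1]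

omit [CompactSpace (US G)] in
theorem continuous_zk (T : ℝ) : Continuous fun p : US G × ℕ => zk T p.1 p.2 := by
  refine Continuous.subtype_mk ((continuousOn_fl G).comp_continuous
    (f := fun p : US G × ℕ => ((p.1 : TT N), ((p.2 : ℝ) + 1) * T)) ?_
    fun p => ⟨p.1.2.1, trivial⟩) _
  have : Continuous fun k : ℕ => ((k : ℝ) + 1) * T := continuous_of_discreteTopology
  exact (continuous_subtype_val.comp continuous_fst).prodMk (this.comp continuous_snd)

theorem pt_zero (h : IsHor G ρ T r W β u) (z : US G) : pt ρ W 0 z = z :=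
  Prod.ext (by rw [pt, add_zero]; exact h.ret.eq _ z.2.1.1) (h.W0 z)

theorem tendsto_am (H : Hyp n N a S) (h : IsHor G ρ T r W β u) {f : TT N → ℝ}
    (hf : ContinuousOn f (US G)) {y : Euc N} (hy : y ∈ ball (0 : Euc N) r) (z : US G) :
    Tendsto (fun k : ℕ => f (fl G (pt ρ W y z, β y z + (k + 1) * T)) - f (zk T z k)) atTop
      (𝓝 0) := by
  have hu := Metric.uniformContinuousOn_iff.1
    ((isCompact_US G H.cpt).uniformContinuousOn_of_continuous hf)
  rw [Metric.tendsto_nhds]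
  intro ε hε
  obtain ⟨δ, δ0, hδ⟩ := hu ε hε
  filter_upwards [(hasSum_half ‖u y‖).summable.tendsto_atTop_zero.eventually_lt_const δ0] with k hk
  rw [dist_zero_right, ← dist_eq_norm]
  exact hδ _ (fl_US (h.mem y hy z) _) _ (zk T z k).2 ((dist_orbit h hy z k).trans_lt hk)

end Cb

open Cb

/-- the transfer function is smooth along the weak stable leaves -/
theorem cobHorS (hN : NemS) (hH : HadS) (hD : DHorS) (hU : UniqS) : CobHorS := by
  intro n N a S G _ H ρ T r W β u h c α cα hα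
  obtain ⟨-, r', r0, r'r, A, hA, eA⟩ := hD n N a S G H ρ T r W β u h
  have sub := ball_subset_ball (x := (0 : Euc N)) r'r
  obtain ⟨D1, hD1, e1⟩ := exists_incr H h r'r hA eA hα
    (γ := fun y => β y + ContinuousMap.const _ ((((0 : ℕ) : ℝ) + 1) * T))
    ((h.smβ.mono sub).add contDiffOn_const)
  obtain ⟨D0, hD0, e0⟩ := exists_incr H h r'r hA eA hα (γ := fun _ => ContinuousMap.const _ T)
    contDiffOn_const
  obtain ⟨g, hg, -, eg, -⟩ := hH (US G) (Euc N) ℝ D0 r' r0 hD0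
  let p : C(US G × ℕ, US G × Icc (0 : ℝ) 1) := ⟨fun x => (zk T x.1 x.2,
    ⟨(1 / 2 : ℝ) ^ (x.2 + 1), by positivity, (le_abs_self _).trans (half_le _)⟩),
    (continuous_zk T).prodMk (Continuous.subtype_mk ((continuous_of_discreteTopology
      (f := fun k : ℕ => (1 / 2 : ℝ) ^ (k + 1))).comp continuous_snd) _)⟩
  obtain ⟨Ng, hNg, eN, -⟩ := hN (US G × ℕ) (US G × Icc (0 : ℝ) 1) (Euc N) ℝ p g r' hg
  obtain ⟨r1, h1, r1r, s1⟩ := on_leaf hU H h r0
  have cm : ContinuousOn (fun q => α (rev q)) (US G) :=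
    cα.comp (by unfold rev; fun_prop) fun q hq => rev_US hq
  let a0 : C(US G, ℝ) := ⟨fun z => α (rev (zk T z 0)), cm.comp_continuous
    (continuous_subtype_val.comp ((continuous_zk T).comp (Continuous.prodMk_left 0)))
    fun z => (zk T z 0).2⟩
  let fs := (ContinuousLinearMap.fst ℝ (Euc N) (Euc N)).compLeftContinuousBounded (US G × ℕ)
  have hfs : ∀ y ∈ ball (0 : Euc N) r1, fs (u y) ∈ ball (0 : US G × ℕ →ᵇ Euc N) r' := fun y hy => by
    rw [mem_ball_zero_iff]
    exact ((BoundedContinuousFunction.norm_le (norm_nonneg _)).2 fun x =>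
      (norm_fst_le _).trans ((u y).norm_coe_le_norm x)).trans_lt (s1 y hy).1
  have sub1 := ball_subset_ball (x := (0 : Euc N)) (min_le_left r1 r')
  have sub2 := ball_subset_ball (x := (0 : Euc N)) (min_le_right r1 r')
  refine ⟨min r1 r', lt_min h1 r0, (min_le_left _ _).trans r1r,
    fun y => a0 - Sig (US G) (Ng (fs (u y))) - D1 y, ?_, fun y hy z => ?_⟩
  · refine (contDiffOn_const.sub ((Sig (US G)).contDiff.comp_contDiffOn (hNg.comp
      (fs.contDiff.comp_contDiffOn (h.smu.mono (sub2.trans sub))) fun y hy =>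
        hfs y (sub1 hy)))).sub (hD1.mono sub2)
  · have hy' := sub (sub2 hy)
    have m := h.mem y hy' z
    have key := tsum_tele (summable_half (Ng (fs (u y))) z) (c := fun k : ℕ =>
      α (rev (fl G (pt ρ W y z, β y z + (k + 1) * T))) - α (rev (zk T z k))) (fun k => ?_)
      (tendsto_am H h cm hy' z)
    · rw [ContinuousMap.sub_apply, ContinuousMap.sub_apply, Sig_apply, key, e1 y (sub2 hy)]
      change α (rev (zk T z 0)) - _ - (α (rev (fl G (pt ρ W y z, β y z + _))) - _) = _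
      rw [ContinuousMap.const_apply]
      ring
    · have b1 : (u y (z, k)).1 ∈ ball (0 : Euc N) r' := mem_ball_zero_iff.2
        (((norm_fst_le _).trans ((u y).norm_coe_le_norm _)).trans_lt (s1 y (sub1 hy)).1)
      have b2 : (1 / 2 : ℝ) ^ (k + 1) • (u y (z, k)).1 ∈ ball (0 : Euc N) r' := by
        rw [mem_ball_zero_iff, norm_smul]
        exact (mul_le_of_le_one_left (norm_nonneg _) (half_le k)).trans_lt
          (mem_ball_zero_iff.1 b1)
      have f1 : fl G (pt ρ W y z, β y z + ((k + 1 : ℕ) + 1) * T) =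
          fl G (fl G (pt ρ W y z, β y z + (k + 1) * T), T) := by
        rw [← fl_add' G m.1]; congr 2; push_cast; ring
      have f2 : (zk T z (k + 1) : TT N) = fl G (zk T z k, T) := by
        rw [zk, zk, ← fl_add' G z.2.1]
        exact congrArg (fun t => fl G (z, t)) (by push_cast; ring)
      have g1 := eg _ b1 (p (z, k)).1 (p (z, k)).2
      rw [eN _ (hfs y (sub1 hy))]
      refine Eq.trans g1 ?_
      change D0 ((1 / 2 : ℝ) ^ (k + 1) • (u y (z, k)).1) (zk T z k) - D0 0 (zk T z k) = _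
      rw [e0 _ b2, e0 0 (mem_ball_self r0), ← (s1 y (sub1 hy)).2 z k, pt_zero h, f1, f2,
        ContinuousMap.const_apply]
      ring

end Crest.Agent.N221.H
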