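import Crest.Agent.N221.U.Ex
import Crest.Agent.N221.U.Ju
import Crest.Agent.N221.U.Dn

/-!
Row 221, horospherical jets (helper62): the splitting of the tangent space of `US G` in the stable,
unstable and flow directions, and its invariance under the linearised flow.
-/

set_option autoImplicit false

open MeasureTheory Set Filter Topology Metric
open scoped ContDiff RealInnerProductSpace ENNReal
open Crest.GeometryTopology.Submanifold
open Crest.Agent.R241.DDefs Crest.Agent.R241.D2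
open Crest.Agent.R208.J Crest.Agent.R208.L

noncomputable section

namespace Crest.Agent.N221.H

/-- centre-unstable coordinates -/
abbrev YY (N : ℕ) := Euc N × ℝ

variable {n N : ℕ} {a : ℝ} {S : Set (Euc N)} (G : Geo n N (-(a ^ 2)) S)

/-- stable vectors -/
def vs (z : TT N) : Euc N →L[ℝ] TT N := (Pv G z).prod (dP G z ∘L Pv G z - U G (rev z))

/-- unstable vectors -/
def vu (z : TT N) : Euc N →L[ℝ] TT N := (Pv G z).prod (dP G z ∘L Pv G z + U G z)

/-- centre-unstable vectors -/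
def iot (z : TT N) : YY N →L[ℝ] TT N :=
  vu G z ∘L ContinuousLinearMap.fst ℝ _ _ + (ContinuousLinearMap.snd ℝ _ _).smulRight (X G z)

/-- inverse of `U + U ∘ rev` -/
def Ei (z : TT N) : Op N := Ring.inverse (UDn.E G z)

/-- centre-unstable coordinates of a vector -/
def kap (z : TT N) : TT N →L[ℝ] YY N :=
  (Ei G z ∘L (Pv G z ∘L ContinuousLinearMap.snd ℝ _ _ +
    U G (rev z) ∘L ContinuousLinearMap.fst ℝ _ _)).prod
    (innerSL ℝ z.2 ∘L ContinuousLinearMap.fst ℝ _ _)

/-- projection killing the centre-unstable vectors -/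
def ps (z : TT N) : TT N →L[ℝ] TT N := ContinuousLinearMap.id ℝ _ - iot G z ∘L kap G z

/-- projection of the coordinates -/
def prY (z : TT N) : YY N →L[ℝ] YY N := (Pv G z).prodMap (ContinuousLinearMap.id ℝ ℝ)

/-- derivative of the retraction on `US G` -/
def dPi (z : TT N) : TT N →L[ℝ] TT N :=
  (G.P z.1 ∘L ContinuousLinearMap.fst ℝ _ _).prod
    (dP G z ∘L G.P z.1 ∘L ContinuousLinearMap.fst ℝ _ _ + Pv G z ∘L ContinuousLinearMap.snd ℝ _ _)

/-- backward unstable cocycle -/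
def MM (T : ℝ) (z : TT N) : YY N →L[ℝ] YY N :=
  (PTi G z T ∘L Ju G (fl G (z, T)) (-T)).prodMap (ContinuousLinearMap.id ℝ ℝ)

variable {G} {z : TT N}

lemma vs_apply (j : Euc N) : vs G z j = (Pv G z j, dP G z (Pv G z j) - U G (rev z) j) := rfl

lemma vu_apply (j : Euc N) : vu G z j = (Pv G z j, dP G z (Pv G z j) + U G z j) := rfl

lemma iot_apply (c : YY N) : iot G z c = vu G z c.1 + c.2 • X G z := rfl

lemma kap_apply (u : TT N) :
    kap G z u = (Ei G z (Pv G z u.2 + U G (rev z) u.1), ⟪z.2, u.1⟫) := rfl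

lemma ps_apply (u : TT N) : ps G z u = u - iot G z (kap G z u) := rfl

lemma prY_apply (c : YY N) : prY G z c = (Pv G z c.1, c.2) := rfl

lemma dPi_apply (u : TT N) :
    dPi G z u = (G.P z.1 u.1, dP G z (G.P z.1 u.1) + Pv G z u.2) := rfl

lemma MM_apply (T : ℝ) (c : YY N) :
    MM G T z c = (PTi G z T (Ju G (fl G (z, T)) (-T) c.1), c.2) := rfl

lemma X_eq (z : TT N) : X G z = (z.2, dP G z z.2) := rfl

lemma Pv_dP (hz : z ∈ TS G) {w : Euc N} (hw : w ∈ G.T z.1) : Pv G z (dP G z w) = 0 := by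
  have h := dP_tangent_normal hz hw
  rw [Pv_apply, h, ← (P_eq_self G hz.1).1 hz.2, inner_P_left G hz.1, h]
  simp

lemma Pv_vel (hz : z ∈ US G) : Pv G z z.2 = 0 := by
  rw [Pv_apply, (P_eq_self G hz.1.1).1 hz.1.2, real_inner_self_eq_norm_sq, hz.2]
  simp

lemma Pv_tan (hz : z ∈ US G) (w : Euc N) : Pv G z w ∈ G.T z.1 := (mem_Vp.1 (Pv_mem hz.1 hz.2 w)).1

lemma inner_vel_Pv (hz : z ∈ US G) (w : Euc N) : ⟪z.2, Pv G z w⟫ = 0 := by
  rw [← inner_Pv hz.1, Pv_vel hz, inner_zero_left]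

section alg

variable (h : IsU G (U G)) (ha : 0 < a)
include h

lemma Um_Pv (hz : z ∈ US G) (w : Euc N) : U G (rev z) (Pv G z w) = U G (rev z) w := by
  rw [← Pv_rev]; exact h.comp_Pv _ (rev_US hz) w

lemma Pv_Um (hz : z ∈ US G) (w : Euc N) : Pv G z (U G (rev z) w) = U G (rev z) w :=
  Pv_of_mem hz.1 (UDn.rev_mem' h hz w)

lemma Um_vel (hz : z ∈ US G) : U G (rev z) z.2 = 0 := by
  rw [← Um_Pv h hz, Pv_vel hz, map_zero]

lemma vs_Pv (hz : z ∈ US G) (j : Euc N) : vs G z (Pv G z j) = vs G z j := by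
  rw [vs_apply, vs_apply, Pv_Pv hz, Um_Pv h hz]

lemma vu_Pv (hz : z ∈ US G) (j : Euc N) : vu G z (Pv G z j) = vu G z j := by
  rw [vu_apply, vu_apply, Pv_Pv hz, h.comp_Pv z hz]

lemma iot_pr (hz : z ∈ US G) (c : YY N) : iot G z (prY G z c) = iot G z c := by
  rw [iot_apply, iot_apply, prY_apply, vu_Pv h hz]

omit h in
lemma vu_sub_vs (j : Euc N) : vu G z j - vs G z j = (0, U G z j + U G (rev z) j) := by
  rw [vu_apply, vs_apply]
  exact Prod.ext (sub_self _) (by simp)

include ha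

lemma isUnit_E (hz : z ∈ US G) : IsUnit (UDn.E G z) :=
  ContinuousLinearMap.isUnit_iff_isUnit_toLinearMap.2
    ((LinearMap.isUnit_iff_isUnit_det _).2 (UDn.det_E_pos h ha hz).ne'.isUnit)

lemma Ei_E (hz : z ∈ US G) (w : Euc N) : Ei G z (UDn.E G z w) = w :=
  congrArg (fun A : Op N => A w) (Ring.inverse_mul_cancel _ (isUnit_E h ha hz))

lemma E_Ei (hz : z ∈ US G) (w : Euc N) : UDn.E G z (Ei G z w) = w :=
  congrArg (fun A : Op N => A w) (Ring.mul_inverse_cancel _ (isUnit_E h ha hz))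

lemma Ei_D (hz : z ∈ US G) (w : Euc N) : Ei G z (U G z w + U G (rev z) w) = Pv G z w := by
  rw [← Ei_E h ha hz (Pv G z w), UDn.E_apply, Pv_Pv hz, sub_self, add_zero, h.comp_Pv z hz,
    Um_Pv h hz]

lemma Pv_Ei (hz : z ∈ US G) {w : Euc N} (hw : Pv G z w = w) : Pv G z (Ei G z w) = Ei G z w := by
  have h1 := congrArg (Pv G z) (E_Ei h ha hz w)
  have h2 := E_Ei h ha hz w
  rw [UDn.E_apply] at h1 h2
  rw [map_add, map_add, map_sub, Pv_Pv hz, sub_self, add_zero, h.Pv_comp hz, Pv_Um h hz, hw] at h1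
  rw [h1, add_eq_left, sub_eq_zero] at h2
  exact h2.symm

omit ha in
lemma kap_vs (hz : z ∈ US G) (j : Euc N) : kap G z (vs G z j) = 0 := by
  rw [kap_apply, vs_apply, map_sub, Pv_dP hz.1 (Pv_tan hz j), Pv_Um h hz, Um_Pv h hz,
    inner_vel_Pv hz]
  simp

lemma kap_iot (hz : z ∈ US G) (c : YY N) : kap G z (iot G z c) = prY G z c := by
  have h1 : kap G z (vu G z c.1) = (Pv G z c.1, 0) := by
    rw [kap_apply, vu_apply, map_add (Pv G z), Pv_dP hz.1 (Pv_tan hz _), zero_add, h.Pv_comp hz,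
      Um_Pv h hz, Ei_D h ha hz, inner_vel_Pv hz]
  have h2 : kap G z (X G z) = (0, 1) := by
    rw [kap_apply, X_eq, Pv_dP hz.1 hz.1.2, Um_vel h hz, real_inner_self_eq_norm_sq, hz.2]
    simp
  rw [iot_apply, map_add, map_smul, h1, h2, prY_apply]
  simp

lemma pr_kap (hz : z ∈ US G) (u : TT N) : prY G z (kap G z u) = kap G z u := by
  rw [prY_apply, kap_apply, Pv_Ei h ha hz (by rw [map_add, Pv_Pv hz, Pv_Um h hz])]

lemma kap_ps (hz : z ∈ US G) (u : TT N) : kap G z (ps G z u) = 0 := by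
  rw [ps_apply, map_sub, kap_iot h ha hz, pr_kap h ha hz, sub_self]

lemma ps_ps (hz : z ∈ US G) (u : TT N) : ps G z (ps G z u) = ps G z u := by
  rw [ps_apply (ps G z u), kap_ps h ha hz, map_zero, sub_zero]

lemma kap_vec (hz : z ∈ US G) (j : Euc N) (c : YY N) :
    kap G z (vs G z j + iot G z c) = prY G z c := by
  rw [map_add, kap_vs h hz, kap_iot h ha hz, zero_add]

lemma ps_vec (hz : z ∈ US G) (j : Euc N) (c : YY N) : ps G z (vs G z j + iot G z c) = vs G z j := by
  rw [ps_apply, kap_vec h ha hz, iot_pr h hz, add_sub_cancel_right]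

lemma dPi_eq (hz : z ∈ US G) (u : TT N) :
    dPi G z u = vs G z (u.1 - (kap G z u).1) + iot G z (kap G z u) := by
  have h1 : Pv G z (kap G z u).1 = (kap G z u).1 := congrArg Prod.fst (pr_kap h ha hz u)
  have h2 : U G z (kap G z u).1 + U G (rev z) (kap G z u).1 = Pv G z u.2 + U G (rev z) u.1 := by
    have := E_Ei h ha hz (Pv G z u.2 + U G (rev z) u.1)
    rw [UDn.E_apply] at this
    change U G z (kap G z u).1 + U G (rev z) (kap G z u).1 +
      ((kap G z u).1 - Pv G z (kap G z u).1) = _ at this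
    rwa [h1, sub_self, add_zero] at this
  have h3 : G.P z.1 u.1 = Pv G z u.1 + (kap G z u).2 • z.2 := by
    rw [Pv_apply, kap_apply, sub_add_cancel]
  rw [dPi_apply, vs_apply, iot_apply, vu_apply, X_eq, h3]
  refine Prod.ext (by simp only [map_sub, Prod.fst_add, Prod.smul_fst]; abel) ?_
  rw [← sub_eq_iff_eq_add] at h2
  simp only [map_add, map_sub, map_smul, Prod.snd_add, Prod.smul_snd, ← h2]
  abel

lemma dPi_i1 (hz : z ∈ US G) (s : TT N) (c : YY N) :
    dPi G z (ps G z s + iot G z c) = vs G z (ps G z s).1 + iot G z c := by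
  have h1 : vs G z ((iot G z c).1 - Pv G z c.1) = 0 := by
    have : (iot G z c).1 - Pv G z c.1 = c.2 • z.2 := by simp [iot_apply, vu_apply, X_eq]
    rw [this, map_smul, ← vs_Pv h hz, Pv_vel hz, map_zero, smul_zero]
  rw [map_add, dPi_eq h ha hz, dPi_eq h ha hz (iot G z c), kap_ps h ha hz, kap_iot h ha hz,
    iot_pr h hz, prY_apply, h1]
  simp

lemma continuousOn_Ei : ContinuousOn (Ei G) (US G) := fun z hz =>
  ContinuousAt.comp_continuousWithinAt (g := Ring.inverse)
    (NormedRing.inverse_continuousAt (isUnit_E h ha hz).unit) (UDn.continuousOn_E h z hz)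

omit ha in
lemma dPi_i0 (hz : z ∈ US G) (q : Euc N) :
    dPi G z (0, U G z q + U G (rev z) q) = vs G z (-q) + iot G z (q, 0) := by
  rw [dPi_apply, iot_apply, map_neg, zero_smul, add_zero, neg_add_eq_sub, vu_sub_vs]
  simp [h.Pv_comp hz, Pv_Um h hz]

end alg

/-! ### the linearised flow -/

section flow

variable (H : Hyp n N a S)
include H

lemma isU : IsU G (U G) := uExS n N a S G H

lemma Js_mem (hz : z ∈ US G) (t : ℝ) (j : Euc N) : Js G z t j ∈ Vp G z := by
  rw [(Js_rev (isU H) hz t j).1, ← Vp_rev]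
  exact Ju_mem H.cpt (isU H) (rev_US hz) _ _

lemma Dfl_vs (hz : z ∈ US G) (t : ℝ) (j : Euc N) :
    Dfl G z t (vs G z j) = vs G (fl G (z, t)) (PT G z t (Js G z t j)) := by
  obtain ⟨b, -, hb⟩ := juS uExS n N a S G H
  rw [vs_apply, sub_eq_add_neg, Dfl_eq hz.1 (Pv_tan hz j)
    ((G.T z.1).neg_mem (mem_Vp.1 (UDn.rev_mem' (isU H) hz j)).1), (hb z hz).2.2.1, ← Js_apply,
    vs_apply, Pv_PT hz.1, Pv_of_mem hz.1 (Js_mem H hz t j), map_neg, hat_apply, PT_PTi hz.1,
    sub_eq_add_neg]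

lemma Dfl_vu (hz : z ∈ US G) (t : ℝ) (j : Euc N) :
    Dfl G z t (vu G z j) = vu G (fl G (z, t)) (PT G z t (Ju G z t j)) := by
  rw [vu_apply, Dfl_eq hz.1 (Pv_tan hz j) (mem_Vp.1 ((isU H).mem hz j)).1,
    Wj'_Ju H.cpt (isU H) hz, ← Ju_apply, vu_apply, Pv_PT hz.1,
    Pv_of_mem hz.1 (Ju_mem H.cpt (isU H) hz t j), hat_apply, PT_PTi hz.1]

omit H in
lemma fderiv_fl (hz : z ∈ TS G) (t : ℝ) (ξ : TT N) (σ : ℝ) :
    fderiv ℝ (fl G) (z, t) (ξ, σ) = Dfl G z t ξ + σ • X G (fl G (z, t)) := by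
  have h1 := ((contDiffAt_fl' G hz t).differentiableAt (by simp)).hasFDerivAt
  have h2 : HasDerivAt (fun s : ℝ => (z, s)) ((0 : TT N), (1 : ℝ)) t :=
    (hasDerivAt_const t z).prodMk (hasDerivAt_id t)
  have h3 : fderiv ℝ (fl G) (z, t) (0, 1) = X G (fl G (z, t)) :=
    (h1.comp_hasDerivAt t h2).unique (hasDerivAt_fl G (complete G hz t))
  rw [← h3, Dfl, ← map_smul, ← map_add]
  simp

/-- the linearised flow in the splitting -/
lemma fderiv_fl_vec (hz : z ∈ US G) (t : ℝ) (j : Euc N) (c : YY N) (σ : ℝ) :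
    fderiv ℝ (fl G) (z, t) (vs G z j + iot G z c, σ) =
      vs G (fl G (z, t)) (PT G z t (Js G z t j)) +
        iot G (fl G (z, t)) (PT G z t (Ju G z t c.1), c.2 + σ) := by
  have e : ∀ ξ, Dfl G z t ξ = dfl G z t ξ := fun ξ => (dfl_apply hz.1 t ξ).symm
  rw [fderiv_fl hz.1, iot_apply, iot_apply, e, map_add, map_add, map_smul, dfl_X hz.1, ← e, ← e,
    Dfl_vs H hz, Dfl_vu H hz, add_smul]
  abel

lemma norm_Ju_neg (hz : z ∈ US G) (T : ℝ) (hT : 0 ≤ T) (j : Euc N) :
    ‖Ju G z (-T) j‖ ≤ Real.exp (-(a * T)) * ‖j‖ := by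
  have h1 := Ju_lower H.cpt (isU H) hz j (neg_nonpos.2 hT)
  rw [Ju_zero, zero_sub, neg_neg] at h1
  rw [Real.exp_neg, ← div_eq_inv_mul, le_div_iff₀' (Real.exp_pos _)]
  exact h1.trans (norm_Pv_le hz j)

lemma norm_Js (hz : z ∈ US G) (T : ℝ) (hT : 0 ≤ T) (j : Euc N) :
    ‖Js G z T j‖ ≤ Real.exp (-(a * T)) * ‖j‖ := by
  rw [(Js_rev (isU H) hz T j).1]
  exact norm_Ju_neg H (rev_US hz) T hT j

lemma norm_MM (hz : z ∈ US G) {T : ℝ} (hT : 0 ≤ T) (c : YY N) : ‖MM G T z c‖ ≤ ‖c‖ := by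
  rw [MM_apply, Prod.norm_def, Prod.norm_def, norm_PTi hz.1]
  refine max_le_max ((norm_Ju_neg H (fl_US hz T) T hT _).trans ?_) le_rfl
  exact mul_le_of_le_one_left (norm_nonneg _)
    (Real.exp_le_one_iff.2 (neg_nonpos.2 (mul_nonneg H.a_pos.le hT)))

/-- the cocycle property -/
lemma MM_pr (hz : z ∈ US G) (T : ℝ) (j : Euc N) (σ : ℝ) :
    MM G T z (prY G (fl G (z, T)) (PT G z T (Ju G z T j), σ)) = prY G z (j, σ) := by
  have h := isU (G := G) H
  have h1 := fl_US hz T
  have m := Ju_mem H.cpt h hz T j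
  rw [prY_apply, prY_apply, MM_apply, Pv_PT hz.1, Pv_of_mem hz.1 m]
  refine Prod.ext ?_ rfl
  have h2 := (((isJac_Ju h h1 (PT G z T (Ju G z T j))).shift hz.1 T).unique
    (contDiff_Rh hz.1).continuous (isJac_Ju h hz j) (t₀ := T) ?_ ?_ 0).1
  · simpa only [zero_sub, Ju_zero] using h2
  · rw [sub_self, Ju_zero, Pv_PT hz.1, PTi_PT hz.1, Pv_of_mem hz.1 m]
  · rw [sub_self, Wj'_zero h1.1 (Pv_tan h1 _) (mem_Vp.1 (h.mem h1 _)).1, Wj'_Ju H.cpt h hz,
      hat_apply]

lemma pr_MM (hz : z ∈ US G) (T : ℝ) (c : YY N) : prY G z (MM G T z c) = MM G T z c := by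
  rw [prY_apply, MM_apply, Pv_of_mem hz.1]
  rw [← velocity_Vp hz.1 T, PT_PTi hz.1]
  exact Ju_mem H.cpt (isU H) (fl_US hz T) _ _

lemma MM_inj (hz : z ∈ US G) {T : ℝ} (hT : 0 ≤ T) {c : YY N} (h0 : MM G T z c = 0) :
    prY G (fl G (z, T)) c = 0 := by
  obtain ⟨b, -, hb⟩ := (isU (G := G) H).exists_bound H.cpt
  have h1 := Ju_upper H.cpt (isU H) hb (fl_US hz T) c.1 (neg_nonpos.2 hT)
  have h2 : PTi G z T (Ju G (fl G (z, T)) (-T) c.1) = 0 := congrArg Prod.fst h0
  rw [← norm_PTi hz.1 T (Ju G _ (-T) c.1), h2, norm_zero, mul_zero, Ju_zero] at h1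
  have h3 : c.2 = 0 := congrArg Prod.snd h0
  exact Prod.ext (norm_le_zero_iff.1 h1) h3

/-! ### continuity -/

lemma continuousOn_Um : ContinuousOn (fun z => U G (rev z)) (US G) :=
  (isU H).cont.comp (continuous_fst.prodMk continuous_snd.neg).continuousOn fun _ hq => rev_US hq

omit H in
lemma cont_prod {A B C : Type} [NormedAddCommGroup A] [NormedSpace ℝ A] [NormedAddCommGroup B]
    [NormedSpace ℝ B] [NormedAddCommGroup C] [NormedSpace ℝ C] {s : Set (TT N)}
    {f : TT N → A →L[ℝ] B} {g : TT N → A →L[ℝ] C} (hf : ContinuousOn f s) (hg : ContinuousOn g s) :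
    ContinuousOn (fun z => (f z).prod (g z)) s :=
  (ContinuousLinearMap.prodₗᵢ ℝ).continuous.comp_continuousOn (hf.prodMk hg)

lemma continuousOn_vs : ContinuousOn (vs G) (US G) := by
  have c1 := (contDiff_Pv (G := G)).continuous.continuousOn (s := US G)
  exact cont_prod c1 (((contDiff_dP G).continuous.continuousOn.clm_comp c1).sub (continuousOn_Um H))

lemma continuousOn_iot : ContinuousOn (iot G) (US G) := by
  have c1 := (contDiff_Pv (G := G)).continuous.continuousOn (s := US G)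
  refine ((cont_prod c1 (((contDiff_dP G).continuous.continuousOn.clm_comp c1).add
    (isU H).cont)).clm_comp continuousOn_const).add ?_
  exact (((ContinuousLinearMap.smulRightL ℝ (YY N) (TT N)
    (ContinuousLinearMap.snd ℝ _ _)).continuous).comp (contDiff_X G).continuous).continuousOn

lemma continuousOn_kap : ContinuousOn (kap G) (US G) := by
  have c1 := (contDiff_Pv (G := G)).continuous.continuousOn (s := US G)
  refine cont_prod ((continuousOn_Ei (isU H) H.a_pos).clm_comp ((c1.clm_comp continuousOn_const).add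
    ((continuousOn_Um H).clm_comp continuousOn_const))) (ContinuousOn.clm_comp ?_ continuousOn_const)
  exact ((innerSL ℝ).continuous.comp continuous_snd).continuousOn

lemma continuousOn_ps : ContinuousOn (ps G) (US G) :=
  continuousOn_const.sub ((continuousOn_iot H).clm_comp (continuousOn_kap H))

omit H in
lemma continuousOn_prY : ContinuousOn (prY G) (US G) :=
  cont_prod ((contDiff_Pv (G := G)).continuous.continuousOn.clm_comp continuousOn_const)
    continuousOn_const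

omit H in
lemma continuousOn_flT (T : ℝ) : ContinuousOn (fun z => fl G (z, T)) (US G) := fun z hz =>
  ((contDiffAt_fl' G hz.1 T).continuousAt.comp (f := fun z => (z, T)) (by fun_prop)).continuousWithinAt

omit H in
lemma continuousOn_PTi (T : ℝ) : ContinuousOn (fun z => PTi G z T) (US G) := fun z hz =>
  ((contDiffAt_PTi hz.1 T).continuousAt.comp (f := fun z => (z, T)) (by fun_prop)).continuousWithinAt

lemma continuousOn_Ju (T : ℝ) : ContinuousOn (fun z => Ju G z T) (US G) := by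
  have c1 := (contDiff_Pv (G := G)).continuous.continuousOn (s := US G)
  have c2 : ContinuousOn (fun z => fderiv ℝ (fl G) (z, T)) (US G) := fun z hz =>
    (((contDiffAt_fl' G hz.1 T).fderiv_right (m := 0) (by simp)).continuousAt.comp
      (f := fun z => (z, T)) (by fun_prop)).continuousWithinAt
  exact (continuousOn_PTi T).clm_comp (continuousOn_const.clm_comp (c2.clm_comp
    (continuousOn_const.clm_comp (cont_prod c1
      (((contDiff_dP G).continuous.continuousOn.clm_comp c1).add (isU H).cont)))))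

lemma continuousOn_MM (T : ℝ) : ContinuousOn (MM G T) (US G) :=
  cont_prod (((continuousOn_PTi T).clm_comp ((continuousOn_Ju H (-T)).comp (continuousOn_flT T)
    fun _ hz => fl_US hz T)).clm_comp continuousOn_const) continuousOn_const

end flow

end Crest.Agent.N221.H
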