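import Crest.Agent.N221.Base

/-!
Row 221, horospherical jets (helper71): the field `W` of unit vectors asymptotic to `z`, the
Busemann shift `β`, the second fundamental form `U ∘ rev` of the horospheres and the transfer
function `α ∘ rev` are smooth along the weak stable leaves, with all jets continuous in `z`
(= smooth maps from a ball of `ℝ^N` to the Banach space `C(US G, ·)`).
Method: Irwin's proof of the stable manifold theorem (implicit function theorem on bounded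
sequences), all base points at once.  The unstable versions follow by `rev`.
-/

set_option autoImplicit false

open MeasureTheory Set Filter Topology Metric
open scoped ContDiff RealInnerProductSpace ENNReal BoundedContinuousFunction
open Crest.GeometryTopology.Submanifold
open Crest.Agent.R241.DDefs Crest.Agent.R241.D2
open Crest.Agent.R208.J Crest.Agent.R208.L

noncomputable section

namespace Crest.Agent.N221.H

/-! ### abstract statements (Mathlib + `Lib.ODEFlow` only) -/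

/-- parametrised superposition operator on bounded continuous functions -/
def NemS : Prop := ∀ (A K E F : Type) [TopologicalSpace A] [TopologicalSpace K] [CompactSpace K]
  [NormedAddCommGroup E] [NormedSpace ℝ E] [FiniteDimensional ℝ E]
  [NormedAddCommGroup F] [NormedSpace ℝ F] (p : C(A, K)) (g : E → C(K, F)) (r : ℝ),
  ContDiffOn ℝ ∞ g (ball 0 r) →
  ∃ Ng : (A →ᵇ E) → (A →ᵇ F), ContDiffOn ℝ ∞ Ng (ball 0 r) ∧
    (∀ η ∈ ball (0 : A →ᵇ E) r, ∀ x, Ng η x = g (η x) (p x)) ∧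
    ∀ η ∈ ball (0 : A →ᵇ E) r, ∀ ζ x, fderiv ℝ Ng η ζ x = fderiv ℝ g (η x) (ζ x) (p x)

/-- Hadamard quotient -/
def HadS : Prop := ∀ (K E F : Type) [TopologicalSpace K] [CompactSpace K]
  [NormedAddCommGroup E] [NormedSpace ℝ E] [NormedAddCommGroup F] [NormedSpace ℝ F]
  [CompleteSpace F] (h : E → C(K, F)) (r : ℝ), 0 < r → ContDiffOn ℝ ∞ h (ball 0 r) →
  ∃ g : E → C(K × Icc (0 : ℝ) 1, F), ContDiffOn ℝ ∞ g (ball 0 r) ∧ g 0 = 0 ∧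
    (∀ e ∈ ball (0 : E) r, ∀ (z : K) (ε : Icc (0 : ℝ) 1),
      (ε : ℝ) • g e (z, ε) = h ((ε : ℝ) • e) z - h 0 z) ∧
    ∀ e (z : K) (ε : Icc (0 : ℝ) 1), fderiv ℝ g 0 e (z, ε) = fderiv ℝ h 0 e z

/-- smooth fixed points -/
def FixS : Prop := ∀ (Λ B : Type) [NormedAddCommGroup Λ] [NormedSpace ℝ Λ] [CompleteSpace Λ]
  [NormedAddCommGroup B] [NormedSpace ℝ B] [CompleteSpace B] (Φ : Λ × B → B) (Ω : Set (Λ × B)),
  IsOpen Ω → (0 : Λ × B) ∈ Ω → ContDiffOn ℝ ∞ Φ Ω → Φ 0 = 0 →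
  ‖(fderiv ℝ Φ 0).comp (ContinuousLinearMap.inr ℝ Λ B)‖ < 1 →
  ∃ r > 0, ∃ ρ > 0, ∃ ψ : Λ → B, ContDiffOn ℝ ∞ ψ (ball 0 r) ∧ ψ 0 = 0 ∧
    (∀ y ∈ ball (0 : Λ) r, (y, ψ y) ∈ Ω ∧ ‖ψ y‖ < ρ ∧ Φ (y, ψ y) = ψ y) ∧
    ∀ y ∈ ball (0 : Λ) r, ∀ b ∈ ball (0 : B) ρ, Φ (y, b) = b → b = ψ y

/-- Irwin's theorem, abstract form.  `f` is the base map on `K`, `h e z` the displacement of the
image of the perturbation `e` of `z`; `F ∋ s` "stable + normal" coordinate, `Y ∋ c` centre-unstable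
coordinate.  The perturbation at step `0` is `i0 z (y, c 0)`, at step `k+1` it is
`2^{-(k+1)} i1 (f^[k+1] z) (s k, c (k+1))`.  `L z = D h(0)` evaluated at `z`. -/
def IrwS : Prop := ∀ (K Λ E F Y : Type) [TopologicalSpace K] [CompactSpace K]
  [NormedAddCommGroup Λ] [NormedSpace ℝ Λ] [FiniteDimensional ℝ Λ]
  [NormedAddCommGroup E] [NormedSpace ℝ E] [FiniteDimensional ℝ E]
  [NormedAddCommGroup F] [NormedSpace ℝ F] [FiniteDimensional ℝ F]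
  [NormedAddCommGroup Y] [NormedSpace ℝ Y] [FiniteDimensional ℝ Y]
  (f : C(K, K)) (h : E → C(K, F)) (r : ℝ) (L : K → E →L[ℝ] F)
  (i0 : C(K, Λ × Y →L[ℝ] E)) (i1 : C(K, F × Y →L[ℝ] E)) (ps : C(K, F →L[ℝ] F))
  (κ : C(K, F →L[ℝ] Y)) (pr M : C(K, Y →L[ℝ] Y)),
  0 < r → ContDiffOn ℝ ∞ h (ball 0 r) → h 0 = 0 → (∀ z e, L z e = fderiv ℝ h 0 e z) →
  (∀ z c, ‖M z c‖ ≤ ‖c‖) →
  (∀ z c, M z (κ (f z) (L z (i0 z (0, c)))) = pr z c) →
  (∀ z s c, M z (κ (f z) (L z (i1 z (s, c)))) = pr z c) →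
  (∀ z c, ‖ps (f z) (L z (i0 z (0, c)))‖ ≤ ‖c‖ / 4) →
  (∀ z s c, ‖ps (f z) (L z (i1 z (s, c)))‖ ≤ ‖s‖ / 4) →
  ∃ r' > 0, ∃ (s : Λ → (K × ℕ →ᵇ F)) (c : Λ → (K × ℕ →ᵇ Y)) (g : Λ → (K × ℕ →ᵇ F)),
    ContDiffOn ℝ ∞ s (ball 0 r') ∧ ContDiffOn ℝ ∞ c (ball 0 r') ∧ ContDiffOn ℝ ∞ g (ball 0 r') ∧
    s 0 = 0 ∧ c 0 = 0 ∧ g 0 = 0 ∧ ∀ y ∈ ball (0 : Λ) r', ∀ z : K,
      ‖i0 z (y, c y (z, 0))‖ < r ∧ g y (z, 0) = h (i0 z (y, c y (z, 0))) z ∧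
      (∀ k : ℕ, ‖i1 (f^[k + 1] z) (s y (z, k), c y (z, k + 1))‖ < r ∧
        ((1 / 2 : ℝ) ^ (k + 1)) • g y (z, k + 1) = h (((1 / 2 : ℝ) ^ (k + 1)) •
          i1 (f^[k + 1] z) (s y (z, k), c y (z, k + 1))) (f^[k + 1] z)) ∧
      ∀ k : ℕ, s y (z, k) = (2 : ℝ) • ps (f^[k + 1] z) (g y (z, k)) ∧
        c y (z, k) = pr (f^[k] z) (c y (z, k)) -
          M (f^[k] z) (κ (f^[k + 1] z) (g y (z, k)) - (1 / 2 : ℝ) • c y (z, k + 1))

/-! ### geometric statements -/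

variable {n N : ℕ} {a : ℝ} {S : Set (Euc N)}

/-- smooth retraction on `S`, defined on the `r`-neighbourhood -/
structure Ret (S : Set (Euc N)) (ρ : Euc N → Euc N) (r : ℝ) : Prop where
  r_pos : 0 < r
  smooth : ∀ x ∈ S, ∀ y ∈ ball (0 : Euc N) r, ContDiffAt ℝ ∞ ρ (x + y)
  mem : ∀ x ∈ S, ∀ y ∈ ball (0 : Euc N) r, ρ (x + y) ∈ S
  eq : ∀ x ∈ S, ρ x = x

/-- the point of the weak stable leaf of `z` over `ρ (z.1 + y)` -/
def pt {G : Geo n N (-(a ^ 2)) S} (ρ : Euc N → Euc N) (W : Euc N → C(US G, Euc N))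
    (y : Euc N) (z : US G) : TT N := (ρ ((z : TT N).1 + y), W y z)

/-- horospherical structure -/
structure IsHor (G : Geo n N (-(a ^ 2)) S) [CompactSpace (US G)] (ρ : Euc N → Euc N) (T r : ℝ)
    (W : Euc N → C(US G, Euc N)) (β : Euc N → C(US G, ℝ))
    (u : Euc N → (US G × ℕ →ᵇ TT N)) : Prop where
  T_pos : 0 < T
  ret : Ret S ρ r
  smW : ContDiffOn ℝ ∞ W (ball 0 r)
  smβ : ContDiffOn ℝ ∞ β (ball 0 r)
  smu : ContDiffOn ℝ ∞ u (ball 0 r)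
  W0 : ∀ z : US G, W 0 z = (z : TT N).2
  β0 : β 0 = 0
  u0 : u 0 = 0
  mem : ∀ y ∈ ball (0 : Euc N) r, ∀ z : US G, pt ρ W y z ∈ US G
  orbit : ∀ y ∈ ball (0 : Euc N) r, ∀ (z : US G) (k : ℕ),
    fl G (pt ρ W y z, β y z + (k + 1) * T) =
      fl G (z, (k + 1) * T) + ((1 / 2 : ℝ) ^ (k + 1)) • u y (z, k)

/-- existence -/
def HorS : Prop := ∀ (n N : ℕ) (a : ℝ) (S : Set (Euc N)) (G : Geo n N (-(a ^ 2)) S)
  [CompactSpace (US G)], Hyp n N a S → ∃ ρ T r W β u, IsHor G ρ T r W β u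

/-- `∇ W = -U ∘ rev`, `∇ β = -W`, and `U ∘ rev` is smooth along the leaves -/
def DHorS : Prop := ∀ (n N : ℕ) (a : ℝ) (S : Set (Euc N)) (G : Geo n N (-(a ^ 2)) S)
  [CompactSpace (US G)], Hyp n N a S → ∀ ρ T r W β u, IsHor G ρ T r W β u →
    (∀ y ∈ ball (0 : Euc N) r, ∀ (z : US G) (η : Euc N),
      G.P (pt ρ W y z).1 (fderiv ℝ W y η z) =
        -U G (rev (pt ρ W y z)) (fderiv ℝ ρ ((z : TT N).1 + y) η) ∧
      fderiv ℝ β y η z = -⟪W y z, fderiv ℝ ρ ((z : TT N).1 + y) η⟫) ∧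
    ∃ r' > 0, r' ≤ r ∧ ∃ A : Euc N → C(US G, Op N), ContDiffOn ℝ ∞ A (ball 0 r') ∧
      ∀ y ∈ ball (0 : Euc N) r', ∀ z : US G, A y z = U G (rev (pt ρ W y z))

/-- geodesics from one point that stay close coincide -/
def UniqS : Prop := ∀ (n N : ℕ) (a : ℝ) (S : Set (Euc N)) (G : Geo n N (-(a ^ 2)) S),
  Hyp n N a S → ∃ δ > 0, ∀ w ∈ US G, ∀ w' ∈ US G, w.1 = w'.1 → ∀ s : ℝ, |s| ≤ δ →
    (∀ t, 0 ≤ t → dist (fl G (w, t)).1 (fl G (w', t + s)).1 ≤ δ) → w = w'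

/-- the transfer function `α ∘ rev` is smooth along the weak stable leaves -/
def CobHorS : Prop := ∀ (n N : ℕ) (a : ℝ) (S : Set (Euc N)) (G : Geo n N (-(a ^ 2)) S)
  [CompactSpace (US G)], Hyp n N a S → ∀ ρ T r W β u, IsHor G ρ T r W β u →
    ∀ (h : ℝ) (α : TT N → ℝ), ContinuousOn α (US G) →
      (∀ z ∈ US G, ∀ t : ℝ, St G t z - h * t = α z - α (ph G t z)) →
      ∃ r' > 0, r' ≤ r ∧ ∃ B : Euc N → C(US G, ℝ), ContDiffOn ℝ ∞ B (ball 0 r') ∧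
        ∀ y ∈ ball (0 : Euc N) r', ∀ z : US G, B y z = α (rev (pt ρ W y z))

/-- `log det (A + A⁻) = α + α ∘ rev + c` -/
def SplitS : Prop := ∀ (n N : ℕ) (a : ℝ) (S : Set (Euc N)) (G : Geo n N (-(a ^ 2)) S),
  Hyp n N a S → ∀ (h : ℝ) (α : TT N → ℝ), ContinuousOn α (US G) →
    (∀ z ∈ US G, ∀ t : ℝ, St G t z - h * t = α z - α (ph G t z)) →
    ∃ c, ∀ q ∈ US G, ldet G q = α q + α (rev q) + c

end Crest.Agent.N221.H
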