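import Crest.Agent.N221.H.Defs
import Crest.Agent.N221.H.Lin
import Crest.Agent.R208.MS1b

/-!
Row 221, horospherical jets (helper62): the retraction on `US G` and the displacement map.
-/

set_option autoImplicit false

open MeasureTheory Set Filter Topology Metric
open scoped ContDiff RealInnerProductSpace ENNReal BoundedContinuousFunction
open Crest.GeometryTopology.Submanifold
open Crest.Agent.R241.DDefs Crest.Agent.R241.D2
open Crest.Agent.R208.J Crest.Agent.R208.L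
open Crest.Agent.Lib

noncomputable section

namespace Crest.Agent.N221.H

variable {n N : ℕ} {a : ℝ} {S : Set (Euc N)} (G : Geo n N (-(a ^ 2)) S)

/-- a retraction with orthogonal derivative along `S` -/
structure RO (ρ : Euc N → Euc N) (O : Set (Euc N)) : Prop where
  op : IsOpen O
  sub : S ⊆ O
  sm : ContDiffOn ℝ ∞ ρ O
  maps : MapsTo ρ O S
  eq : ∀ x ∈ S, ρ x = x
  der : ∀ x ∈ S, fderiv ℝ ρ x = G.P x

theorem exists_RO (hS : IsSubmanifold n N S) (hc : IsCompact S) : ∃ ρ O, RO G ρ O := by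
  obtain ⟨R, O, hO, hSO, hR, hRS, hRid⟩ :=
    R208.E.exists_retract (R208.FI.clo_of_isSubmanifold hS hc)
  set m : Euc N → Euc N := fun q => R q + G.P (R q) (q - R q) with hm
  have hmO : ContDiffOn ℝ ∞ m O :=
    hR.add ((G.contDiff_P.comp_contDiffOn hR).clm_apply (contDiffOn_id.sub hR))
  have hmS : ∀ x ∈ S, m x = x := fun x hx => by
    simp only [hm, hRid x hx, sub_self, map_zero, add_zero]
  refine ⟨fun q => R (m q), O ∩ m ⁻¹' O, hmO.continuousOn.isOpen_inter_preimage hO hO,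
    fun x hx => ⟨hSO hx, by rw [mem_preimage, hmS x hx]; exact hSO hx⟩,
    hR.comp (hmO.mono inter_subset_left) fun q hq => hq.2, fun q hq => hRS hq.2,
    fun x hx => by simp only [hmS x hx, hRid x hx], fun x hx => ?_⟩
  obtain ⟨hT, hTid⟩ := R208.MS.retract_fderiv (G := G) hO hSO hR hRS hRid hx
  have hRd : HasFDerivAt R (fderiv ℝ R x) x :=
    ((hR.contDiffAt (hO.mem_nhds (hSO hx))).differentiableAt (by simp)).hasFDerivAt
  have hPd : HasFDerivAt (fun q => G.P (R q)) (fderiv ℝ (fun q => G.P (R q)) x) x :=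
    ((differentiable_P G (R x)).comp x hRd.differentiableAt).hasFDerivAt
  have hmd : HasFDerivAt m (G.P x) x := by
    have hid : HasFDerivAt (fun q : Euc N => q - R q)
        (ContinuousLinearMap.id ℝ _ - fderiv ℝ R x) x := (hasFDerivAt_id x).sub hRd
    refine (hRd.add (hPd.clm_apply hid)).congr_fderiv ?_
    ext1 v
    simp only [add_apply, ContinuousLinearMap.comp_apply, sub_apply, hRid x hx, sub_self,
      map_zero, ContinuousLinearMap.id_apply, add_zero, map_sub]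
    rw [(P_eq_self G hx).1 (hT v)]
    abel
  have hRd' : HasFDerivAt R (fderiv ℝ R x) (m x) := by rw [hmS x hx]; exact hRd
  have h2 : HasFDerivAt (fun q => R (m q)) ((fderiv ℝ R x).comp (G.P x)) x := hRd'.comp x hmd
  rw [h2.fderiv]
  ext1 v
  rw [ContinuousLinearMap.comp_apply, hTid _ (P_mem G hx)]

/-- the retraction on `TS G` -/
def Qm (ρ : Euc N → Euc N) (w : TT N) : TT N := (ρ w.1, G.P (ρ w.1) w.2)

/-- the retraction on `US G` -/
def Pm (ρ : Euc N → Euc N) (w : TT N) : TT N :=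
  ((Qm G ρ w).1, (1 / ‖(Qm G ρ w).2‖) • (Qm G ρ w).2)

/-- its domain -/
def OO (ρ : Euc N → Euc N) (O : Set (Euc N)) : Set (TT N) :=
  Prod.fst ⁻¹' O ∩ Qm G ρ ⁻¹' {w | w.2 ≠ 0}

variable {G} {ρ : Euc N → Euc N} {O : Set (Euc N)} {z : TT N}

namespace RO

variable (h : RO G ρ O)
include h

lemma smQ : ContDiffOn ℝ ∞ (Qm G ρ) (Prod.fst ⁻¹' O) := by
  have h1 : ContDiffOn ℝ ∞ (fun w : TT N => ρ w.1) (Prod.fst ⁻¹' O) :=
    h.sm.comp contDiffOn_fst fun _ hw => hw
  exact h1.prodMk ((G.contDiff_P.comp_contDiffOn h1).clm_apply contDiffOn_snd)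

lemma isOpen : IsOpen (OO G ρ O) :=
  h.smQ.continuousOn.isOpen_inter_preimage (h.op.preimage continuous_fst)
    (isOpen_ne.preimage continuous_snd)

lemma Q_eq (hz : z ∈ US G) : Qm G ρ z = z := by
  rw [Qm, h.eq _ hz.1.1, (P_eq_self G hz.1.1).1 hz.1.2]

lemma P_eq (hz : z ∈ US G) : Pm G ρ z = z := by
  rw [Pm, h.Q_eq hz, hz.2]
  simp

lemma subO : US G ⊆ OO G ρ O := fun z hz =>
  ⟨h.sub hz.1.1, by rw [mem_preimage, h.Q_eq hz]; exact (US_subset_TS0 G hz).2⟩

lemma smP : ContDiffOn ℝ ∞ (Pm G ρ) (OO G ρ O) := by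
  have h1 : ContDiffOn ℝ ∞ (Qm G ρ) (OO G ρ O) := h.smQ.mono inter_subset_left
  exact h1.fst.prodMk ((contDiffOn_const.div (h1.snd.norm ℝ fun w hw => hw.2)
    fun w hw => norm_ne_zero_iff.2 hw.2).smul h1.snd)

lemma P_mem {w : TT N} (hw : w ∈ OO G ρ O) : Pm G ρ w ∈ US G := by
  have h1 := h.maps hw.1
  refine ⟨⟨h1, (G.T _).smul_mem _ (R241.D2.P_mem G h1)⟩, ?_⟩
  rw [Pm, norm_smul, norm_div, norm_one, norm_norm, one_div_mul_cancel (norm_ne_zero_iff.2 hw.2)]

lemma derP (hz : z ∈ US G) : HasFDerivAt (Pm G ρ) (dPi G z) z := by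
  have hx := hz.1.1
  have h1 : HasFDerivAt ρ (G.P z.1) z.1 := h.der _ hx ▸
    ((h.sm.contDiffAt (h.op.mem_nhds (h.sub hx))).differentiableAt (by simp)).hasFDerivAt
  have h2 : HasFDerivAt (fun w : TT N => ρ w.1) _ z := h1.comp z hasFDerivAt_fst
  have h3 : HasFDerivAt G.P (fderiv ℝ G.P z.1) (ρ z.1) := by
    rw [h.eq _ hx]; exact (differentiable_P G _).hasFDerivAt
  have h4 : HasFDerivAt (Qm G ρ) _ z := h2.prodMk ((h3.comp z h2).clm_apply hasFDerivAt_snd)
  have h5 : HasFDerivAt (fun w : TT N => (w.1, (1 / ‖w.2‖) • w.2)) _ z :=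
    hasFDerivAt_fst.prodMk ((hasFDerivAt_tau (US_subset_TS0 G hz).2 1).smul hasFDerivAt_snd)
  rw [← h.Q_eq hz] at h5
  refine (h5.comp z h4).congr_fderiv (ContinuousLinearMap.ext fun u => ?_)
  have e1 : fderiv ℝ G.P z.1 (G.P z.1 u.1) z.2 = dP G z (G.P z.1 u.1) :=
    dP_comm hx (R241.D2.P_mem G hx) hz.1.2
  have e2 : ⟪z.2, dP G z (G.P z.1 u.1)⟫ = 0 := by
    rw [← (P_eq_self G hx).1 hz.1.2, inner_P_left G hx,
      dP_tangent_normal hz.1 (R241.D2.P_mem G hx), inner_zero_right]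
  have e3 : ⟪z.2, G.P z.1 u.2⟫ = ⟪z.2, u.2⟫ := by
    rw [← inner_P_left G hx, (P_eq_self G hx).1 hz.1.2]
  rw [dPi_apply, Pv_apply, h.Q_eq hz]
  simp [h.eq _ hx, hz.2, e1, inner_add_right, e2, e3]
  abel

end RO

/-- restriction to `US G` -/
def toC {B : Type} [TopologicalSpace B] (F : TT N → B) (hF : ContinuousOn F (US G)) : C(US G, B) :=
  ⟨fun z => F z, hF.domRestrict⟩

lemma toC_apply {B : Type} [TopologicalSpace B] (F : TT N → B) (hF : ContinuousOn F (US G))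
    (z : US G) : toC F hF z = F z := rfl

/-- the time `T` map on `US G` -/
def fT (G : Geo n N (-(a ^ 2)) S) (T : ℝ) : C(US G, US G) :=
  ⟨fun z => ⟨fl G (z, T), fl_US z.2 T⟩, (continuousOn_flT T).domRestrict.subtype_mk _⟩

lemma fT_iter (T : ℝ) (z : US G) (k : ℕ) : ((fT G T)^[k] z : TT N) = fl G (z, k * T) := by
  induction k with
  | zero => simp [fl_zero]
  | succ k ih =>
    rw [Function.iterate_succ_apply', Nat.cast_succ, add_mul, one_mul, fl_add' G z.2.1, ← ih]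
    rfl

/-- evaluation at the step `0` -/
def ev0 {K B : Type} [TopologicalSpace K] [CompactSpace K] [NormedAddCommGroup B]
    [NormedSpace ℝ B] : (K × ℕ →ᵇ B) →L[ℝ] C(K, B) :=
  LinearMap.mkContinuous
    { toFun := fun c => ⟨fun z => c (z, 0), by fun_prop⟩
      map_add' := fun _ _ => rfl
      map_smul' := fun _ _ => rfl } 1 fun c => by
    rw [one_mul, ContinuousMap.norm_le _ (norm_nonneg _)]
    exact fun z => c.norm_coe_le_norm _

/-- the displacement map -/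
theorem exists_disp [CompactSpace (US G)] (h : RO G ρ O) {r : ℝ} (hr : 0 < r)
    (hO : ∀ z ∈ US G, ∀ u : TT N, ‖u‖ < r → z + u ∈ OO G ρ O) (T : ℝ) :
    ∃ H : TT N × ℝ → C(US G, TT N), ContDiffOn ℝ ∞ H (ball 0 r) ∧ H 0 = 0 ∧
      (∀ (z : US G) e, fderiv ℝ (fl G) (z, T) (dPi G z e.1, e.2) = fderiv ℝ H 0 e z) ∧
      ∀ (z : US G) e, ‖e‖ < r → H e z = fl G (Pm G ρ (z + e.1), T + e.2) - fl G (z, T) := by
  set g : TT N × ℝ → TT N := fun p => fl G (Pm G ρ p.1, T + p.2) with hg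
  set Ω : Set (TT N × ℝ) := Prod.fst ⁻¹' OO G ρ O with hΩ
  have oΩ : IsOpen Ω := h.isOpen.preimage continuous_fst
  have sg : ContDiffOn ℝ ∞ g Ω := fun p hp =>
    (contDiffAt_fl' G (h.P_mem hp).1 _).comp_contDiffWithinAt
      (f := fun p : TT N × ℝ => (Pm G ρ p.1, T + p.2)) p
      (((h.smP.comp contDiffOn_fst fun _ hw => hw).prodMk (by fun_prop)) p hp)
  set ι0 : C(US G, TT N × ℝ) := ⟨fun z => (z, 0), by fun_prop⟩ with hι
  set c : TT N × ℝ →L[ℝ] C(US G, TT N × ℝ) := ContinuousLinearMap.const ℝ (US G) with hc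
  have mem : ∀ e : TT N × ℝ, ‖e‖ < r → ι0 + c e ∈ ODEFlow.mapsIn (US G) Ω := fun e he z =>
    hO z z.2 e.1 ((norm_fst_le e).trans_lt he)
  have val : ∀ (z : US G) e, ‖e‖ < r → ODEFlow.nem g (ι0 + c e) z =
      fl G (Pm G ρ (z + e.1), T + e.2) := fun z e he => by
    rw [ODEFlow.nem_apply sg.continuousOn (mem e he)]
    simp [hg, hι, hc]
  refine ⟨fun e => ODEFlow.nem g (ι0 + c e) - toC _ (continuousOn_flT T), ?_, ?_, fun z e => ?_,
    fun z e he => ?_⟩
  · exact ((ODEFlow.contDiffOn_nem (n := ⊤) oΩ sg).comp (contDiffOn_const.add c.contDiff.contDiffOn)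
      fun e he => mem e (mem_ball_zero_iff.1 he)).sub contDiffOn_const
  · ext1 z
    rw [ContinuousMap.sub_apply, val z 0 (by simpa using hr)]
    simp [h.P_eq z.2, toC_apply]
  · have m0 := mem 0 (by simpa using hr)
    have h1 := (HasFDerivAt.comp (f := fun e => ι0 + c e) 0
      (ODEFlow.hasFDerivAt_nem oΩ (sg.of_le (by simp)) m0)
      (c.hasFDerivAt.const_add ι0)).sub_const (toC _ (continuousOn_flT (G := G) T))
    have h2 : HasFDerivAt g ((fderiv ℝ (fl G) (z, T)).comp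
        ((dPi G z).prodMap (ContinuousLinearMap.id ℝ ℝ))) (z, 0) := by
      have h3 : HasFDerivAt (fl G) (fderiv ℝ (fl G) (z, T)) (Pm G ρ z, T + 0) := by
        rw [h.P_eq z.2, add_zero]
        exact ((contDiffAt_fl' G z.2.1 T).differentiableAt (by simp)).hasFDerivAt
      have h4 : HasFDerivAt (fun p : TT N × ℝ => Pm G ρ p.1)
          (dPi G z ∘L ContinuousLinearMap.fst ℝ (TT N) ℝ) (z, 0) :=
        HasFDerivAt.comp (f := Prod.fst) ((z : TT N), (0 : ℝ)) (h.derP z.2) hasFDerivAt_fst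
      have h5 : HasFDerivAt (fun p : TT N × ℝ => T + p.2) (ContinuousLinearMap.snd ℝ (TT N) ℝ)
          (z, 0) := hasFDerivAt_snd.const_add T
      exact HasFDerivAt.comp (f := fun p : TT N × ℝ => (Pm G ρ p.1, T + p.2)) _ h3 (h4.prodMk h5)
    erw [h1.fderiv]
    rw [ContinuousLinearMap.comp_apply, ODEFlow.applyB_apply,
      ODEFlow.nem_apply (sg.continuousOn_fderiv_of_isOpen oΩ (by simp)) m0]
    simp only [map_zero, add_zero, hι, ContinuousMap.coe_mk, h2.fderiv]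
    rfl
  · rw [ContinuousMap.sub_apply, val z e he]
    rfl

end Crest.Agent.N221.H
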